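import Vale.Agent.P354Z.Est
import Vale.Agent.P354XR.Br

/-!
The first consequences of the definitions of the state.
-/

open scoped ContDiff
open Set Filter Topology

noncomputable section

namespace Vale.Agent.P354CV

open Vale.Agent.P354XG Vale.Agent.P354XD Vale.Agent.P354XR Vale.Agent.P354XI Vale.Agent.P354Z
open Vale.Agent.P354XT (up dn)
open Vale.Agent.P354BF (De)
open Vale.Agent.P354XF (fr)

section model
variable {M0 : ℝ}

theorem up_cd (a b : ℝ) : ContDiff ℝ ∞ (up a b) :=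
  Real.smoothTransition.contDiff.comp ((contDiff_id.sub contDiff_const).div_const _)

theorem cut_cd (M0 : ℝ) : ContDiff ℝ ∞ (cut M0) :=
  ((up_cd _ _).comp contDiff_snd.snd).mul ((contDiff_const.sub (up_cd _ _)).comp contDiff_fst)

theorem cut_mul (h : 0 < M0) {F : ℝ × ℝ × ℝ → ℝ}
    (hF : ∀ p, De p.1 p.2.1 p.2.2 ≠ 0 → p.2.2 ≠ 0 → ContDiffAt ℝ ∞ F p) :
    ContDiff ℝ ∞ fun p => cut M0 p * F p := contDiff_iff_contDiffAt.2 fun p => by
  by_cases c1 : p.2.2 < 5 * M0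
  · refine (contDiffAt_const (c := 0)).congr_of_eventuallyEq
      (((isOpen_lt continuous_snd.snd continuous_const).eventually_mem c1).mono fun q hq => ?_)
    have : (q.2.2 - 5 * M0) / (6 * M0 - 5 * M0) ≤ 0 :=
      div_nonpos_of_nonpos_of_nonneg (sub_nonpos.2 (le_of_lt hq)) (by linarith)
    simp [cut, up, Real.smoothTransition.zero_of_nonpos this]
  by_cases c2 : 2 * M0 < p.1
  · refine (contDiffAt_const (c := 0)).congr_of_eventuallyEq
      (((isOpen_lt continuous_const continuous_fst).eventually_mem c2).mono fun q hq => ?_)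
    have : 1 ≤ (q.1 - 3 / 2 * M0) / (2 * M0 - 3 / 2 * M0) :=
      (one_le_div (by linarith)).2 (by have : 2 * M0 < q.1 := hq; linarith)
    simp [cut, dn, up, Real.smoothTransition.one_of_one_le this]
  refine (cut_cd M0).contDiffAt.mul (hF p (ne_of_gt ?_) (by intro e; linarith))
  unfold De
  nlinarith [sq_nonneg p.2.1, mul_pos h h]

theorem hs_cd (h : 0 < M0) : ContDiff ℝ ∞ (hs M0) :=
  contDiff_const.add (cut_mul h fun p h1 h2 => by
    have := pow_ne_zero 2 h2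
    unfold De at *
    fun_prop (disch := assumption))

theorem js_cd (h : 0 < M0) : ContDiff ℝ ∞ (js M0) :=
  cut_mul h fun p h1 _ => by
    unfold De at *
    fun_prop (disch := assumption)

end model

section conc
variable {O : Set E6} {f : ℝ → ℝ} {x : E6}

theorem fv_rs {a : Sm (on O)} {g : Unit × E6 → ℂ} (h : Rs a g) (hx : x ∈ O) :
    fv a x = g ((), x) := by rw [fv_in _ hx]; exact ev_on h hx

theorem cone_pos (h : Cone O) : Pos (on O) := on_of h.op h.pos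

theorem cone_hp (h : Cone O) : (hp (on O)).Is := hp_is (cone_pos h).off

theorem rs_rf (h : Cone O) (hf : ContDiffOn ℝ ∞ f (Ioi 0)) :
    Rs (rf O f) fun p => (f p.2.2.1 : ℂ) :=
  rs_gm (on_of h.op fun x hx => Complex.ofRealCLM.contDiff.contDiffAt.comp x
    ((hf.contDiffAt (Ioi_mem_nhds (h.pos x hx).1)).comp x contDiffAt_snd.fst))

theorem fv_rf (h : Cone O) (hf : ContDiffOn ℝ ∞ f (Ioi 0)) (hx : x ∈ O) :
    fv (rf O f) x = f x.2.1 := fv_rs (rs_rf h hf) hx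

theorem cj_rf (h : Cone O) (hf : ContDiffOn ℝ ∞ f (Ioi 0)) : cj (rf O f) = rf O f :=
  (rs_rf h hf).cj.ext (rs_rf h hf) (Eventually.of_forall fun _ => Complex.conj_ofReal _)

theorem pd_rf (h : Cone O) (hf : ContDiffOn ℝ ∞ f (Ioi 0)) {v : E6} (hv : v.2.1 = 0) :
    pd v (rf O f) = 0 := ext_fv h.op fun x hx => by
  have e : fv (rf O f) =ᶠ[𝓝 x] fun y => (f y.2.1 : ℂ) :=
    (h.op.eventually_mem hx).mono fun y hy => fv_rf h hf hy
  have d := Complex.ofRealCLM.hasFDerivAt.comp x (((hf.contDiffAt (Ioi_mem_nhds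
    (h.pos x hx).1)).differentiableAt (by simp)).hasDerivAt.comp_hasFDerivAt x
      (hasFDerivAt_snd (𝕜 := ℝ) (p := x)).fst)
  rw [fv_pd h.op _ _ hx, fv_zero, e.fderiv_eq, show fderiv ℝ (fun y : E6 => (f y.2.1 : ℂ)) x = _
    from d.fderiv]
  simp [hv]

theorem d_rf (h : Cone O) (hf : ContDiffOn ℝ ∞ f (Ioi 0)) (i : Fin 6) (hi : i ≠ 1) :
    (hp (on O)).d i (rf O f) = 0 := by
  rw [hp_d, pd_rf h hf, pd_rf h hf, mul_zero, mul_zero, add_zero]
  all_goals fin_cases i <;> first | rfl | exact absurd rfl hi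

theorem hs_on {M0 : ℝ} (h0 : 0 < M0) (M a : ℝ) :
    ContDiffOn ℝ ∞ (fun r => hs M0 (M, a, r)) (Ioi 0) :=
  ((hs_cd h0).comp (by fun_prop)).contDiffOn

theorem js_on {M0 : ℝ} (h0 : 0 < M0) (M a : ℝ) :
    ContDiffOn ℝ ∞ (fun r => js M0 (M, a, r)) (Ioi 0) :=
  ((js_cd h0).comp (by fun_prop)).contDiffOn

theorem ho_on (M0 : ℝ) : ContDiffOn ℝ ∞ (fun r : ℝ => -(4 * M0 ^ 2 / r ^ 2)) (Ioi 0) :=
  fun r hr => by
    have := pow_ne_zero 2 (ne_of_gt (show 0 < r from hr))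
    refine ContDiffAt.contDiffWithinAt ?_
    fun_prop (disch := assumption)

theorem pm_upd {A : Type} [CommRing A] [Algebra ℂ A] {K : Hp A} {p : Pm A} (q : p.Is K) {h j : A}
    (ch : K.c h = h) (cj : K.c j = j) (dh : ∀ i, i ≠ 1 → K.d i h = 0)
    (dj : ∀ i, i ≠ 1 → K.d i j = 0) : Pm.Is { p with h1 := h, j1 := j } K :=
  ⟨q.ca, q.cM, ch, cj, q.da, q.dM, dh, dj, q.hg⟩

theorem pI_is (h : Cone O) {M0 : ℝ} (h0 : 0 < M0) (M a : ℝ) : (pI O M0 M a).Is (hp (on O)) :=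
  pm_upd (pm_is (cone_pos h) (fun _ => M) fun _ => a) (cj_rf h (hs_on h0 M a))
    (cj_rf h (js_on h0 M a)) (d_rf h (hs_on h0 M a)) (d_rf h (js_on h0 M a))

theorem pO_is (h : Cone O) (M0 M a : ℝ) : (pO O M0 M a).Is (hp (on O)) :=
  pm_upd (pm_is (cone_pos h) (fun _ => M) fun _ => a) (cj_rf h (ho_on M0)) (map_zero _)
    (d_rf h (ho_on M0)) fun _ _ => D_zero _

end conc

section alg
variable {A : Type} [CommRing A] [Algebra ℂ A] {K : Hp A} {p : Pm A}

/-- D is a combination of the coordinate fields. -/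
def Spn (K : Hp A) (D : Der A) : Prop := ∀ f, D f = ∑ i, D (K.z i) * K.d i f

theorem Spn.add {D D' : Der A} (h : Spn K D) (h' : Spn K D') : Spn K (D + D') := fun f => by
  simp only [Derivation.add_apply, add_mul, Finset.sum_add_distrib, ← h f, ← h' f]

theorem Spn.smul (a : A) {D : Der A} (h : Spn K D) : Spn K (a • D) := fun f => by
  simp only [Derivation.smul_apply, smul_eq_mul, mul_assoc, ← Finset.mul_sum, ← h f]

theorem Spn.sub {D D' : Der A} (h : Spn K D) (h' : Spn K D') : Spn K (D - D') := fun f => by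
  simp only [Derivation.sub_apply, sub_mul, Finset.sum_sub_distrib, ← h f, ← h' f]

theorem spn_d (h : K.Is) (i : Fin 6) : Spn K (K.d i) := fun f => by simp [h.dz]

theorem spn_H (h : K.Is) : Spn K K.H ∧ Spn K K.B :=
  ⟨((spn_d h 2).smul _).add ((spn_d h 3).smul _), ((spn_d h 4).smul _).add ((spn_d h 5).smul _)⟩

theorem spn_kc (h : K.Is) (e1 e2 e3 e4 e5 e6 : A) : Spn K (K.kc.V e1 e2 e3 e4 e5 e6) :=
  ((((((spn_d h 0).smul _).add ((spn_d h 1).smul _)).add
    ((((spn_d h 3).smul _).sub ((spn_d h 2).smul _)).smul _)).add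
    ((((spn_d h 5).smul _).sub ((spn_d h 4).smul _)).smul _)).add ((spn_H h).1.smul _)).add
    ((spn_H h).2.smul _)

theorem spn_V (h : K.Is) (e1 e2 e3 e4 e5 e6 : A) : Spn K ((kk K p).V e1 e2 e3 e4 e5 e6) := by
  rw [kk_V]; exact spn_kc h _ _ _ _ _ _

theorem spn_act (h : K.Is) (g : Fin 4 → Fin 4 → A) (Γ : Fin 4 → Fin 4 → Fin 4 → A) (u : Op A) :
    Spn K ((K.geo g Γ).act u) := by
  rw [Geo.act, Fin.sum_univ_four]
  exact ((((((spn_kc h _ _ _ _ _ _).smul _).add ((spn_kc h _ _ _ _ _ _).smul _)).add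
    ((spn_kc h _ _ _ _ _ _).smul _)).add ((spn_kc h _ _ _ _ _ _).smul _)).add
    ((spn_H h).1.smul _)).add ((spn_H h).2.smul _)

theorem spn_ghp (h : K.Is) (g : Fin 4 → Fin 4 → A) (Γ : Fin 4 → Fin 4 → Fin 4 → A) (F : Fr A)
    (b : Fin 4) : Spn K (f4 (F.ghp (K.geo g Γ)) b) := by
  fin_cases b <;> exact spn_act h g Γ _

theorem spn_kerr (h : K.Is) (b : Fin 4) : Spn K (f4 (kk K p).kerr b) := by
  fin_cases b <;> exact spn_V h _ _ _ _ _ _

/-- A field from its components. -/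
theorem Spn.cm (h : K.Is) (p : Pm A) {D : Der A} (hD : Spn K D) (f : A) :
    D f = ∑ e, cm K p D e * (kk K p).bs e f := by
  have n := h.hN
  rw [hD f]
  simp only [Fin.sum_univ_six, P354Z.cm, KC.bs, Matrix.cons_val, kk_R, KC.F2, KC.V_ap]
  simp only [kk, Hp.kc, Hp.P_ap, Hp.Q_ap, Hp.H_ap, Hp.B_ap, Hp.N] at n ⊢
  linear_combination -(D (K.z 2) * K.d 2 f + D (K.z 3) * K.d 3 f + D (K.z 4) * K.d 4 f +
    D (K.z 5) * K.d 5 f) * n

theorem fr_f4 (G : GHP A) (b : Fin 4) : fr G (b.castAdd 2) = f4 G b := by fin_cases b <;> rfl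

end alg

variable {c : Cs} {E : Est}

theorem G1_is (h : E.Shape c) (q : E.Eqs c) : E.G1.Is :=
  Fr.WN.is (geo_is (cone_pos h.co1).off _ (on_of h.co1.op q.v1)) q.w1

theorem G2_is (h : E.Shape c) (q : E.Eqs c) : E.G2.Is :=
  Fr.WN.is (geo_is (cone_pos h.co2).off _ (on_of h.co2.op q.v2)) q.w2

theorem K1_is (h0 : 0 < c.M) (h : E.Shape c) : (E.K1 c).Is :=
  kk_is (cone_hp h.co1) (pI_is h.co1 h0 _ _)

theorem K2_is (h : E.Shape c) : (E.K2 c).Is := kk_is (cone_hp h.co2) (pO_is h.co2 _ _ _)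

/-- The frame F1 and the frame of Kerr. -/
theorem f4_G1 (h : E.Shape c) (b : Fin 4) (u : Sm (on E.O1)) : f4 E.G1 b u =
    f4 (E.K1 c).kerr b u + ∑ e, E.d1 c (.inl (b, e)) * (E.K1 c).bs e u := by
  have s : Spn (hp _) (f4 E.G1 b) := spn_ghp (cone_hp h.co1) _ _ E.F1 b
  have a1 := s.cm (cone_hp h.co1) (E.p1 c) u
  have a2 := (spn_kerr (p := E.p1 c) (cone_hp h.co1) b).cm (cone_hp h.co1) (E.p1 c) u
  simp only [Est.d1, dat, Sum.elim_inl, sub_mul, Finset.sum_sub_distrib]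
  simp only [Est.K1, kI, Est.p1] at a1 a2 ⊢
  linear_combination a1 - a2

end Vale.Agent.P354CV
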