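import Vale.Agent.P354Z.Est

/-!
The integrals over parts of the near region, up to the lid.
-/

open scoped ENNReal
open MeasureTheory Set

noncomputable section

namespace Vale.Agent.P354CV

open Vale.Agent.P354XG Vale.Agent.P354XD Vale.Agent.P354XI Vale.Agent.P354Z

/-- The integral of f over the part Z of the shell of the near region. -/
def Yz (E : Est) (f : E6 → ℝ) (Z : Set E6) : ℝ≥0∞ :=
  ∫⁻ x in {x | x ∈ E.O1 ∧ An x ∧ x ∈ Z}, ENNReal.ofReal (f x)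

/-- The part above the bottom, below the level s, r ≤ ρ, a ≤ t ≤ b. -/
def Zs (c : Cs) (E : Est) (s ρ a b : ℝ) : Set E6 :=
  {x | Est.Ab c x ∧ rv E.sig x ≤ s ∧ x.2.1 ≤ ρ ∧ a ≤ x.1 ∧ x.1 ≤ b}

/-- The same up to the lid. -/
def Zl (c : Cs) (ρ a b : ℝ) : Set E6 := {x | Est.Ab c x ∧ x.2.1 ≤ ρ ∧ a ≤ x.1 ∧ x.1 ≤ b}

/-- The integrals of eta. -/
def Ys (c : Cs) (E : Est) (n : ℕ) (s ρ a b : ℝ) : ℝ≥0∞ := Yz E (E.eta n) (Zs c E s ρ a b)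
def Yl (c : Cs) (E : Est) (n : ℕ) (ρ a b : ℝ) : ℝ≥0∞ := Yz E (E.eta n) (Zl c ρ a b)

theorem Yz_mono (E : Est) (f : E6 → ℝ) {Z Z' : Set E6}
    (h : ∀ x ∈ E.O1, An x → x ∈ Z → x ∈ Z') : Yz E f Z ≤ Yz E f Z' :=
  lintegral_mono_set fun x hx => ⟨hx.1, hx.2.1, h x hx.1 hx.2.1 hx.2.2⟩

theorem Yz_le (E : Est) {f g : E6 → ℝ} (h : ∀ x, f x ≤ g x) (Z : Set E6) : Yz E f Z ≤ Yz E g Z :=
  lintegral_mono fun x => ENNReal.ofReal_le_ofReal (h x)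

theorem Ys_le (c : Cs) (E : Est) (n : ℕ) (s ρ a b : ℝ) : Ys c E n s ρ a b ≤ Yl c E n ρ a b :=
  Yz_mono E _ fun _ _ _ h => ⟨h.1, h.2.2⟩

/-- The Sobolev inequality up to the lid. -/
def SOBC : Prop := ∀ (M0 r1 ρ la : ℝ) (n : ℕ), 0 < r1 → 0 < la → ∃ C δ : ℝ, 0 < C ∧ 0 < δ ∧
  ∀ (c : Cs) (E : Est), c.M = M0 → c.r1 = r1 → 0 < c.M → E.Shape c → E.Eqs c → ρ + 2 ≤ c.Rs →
    ∀ x ∈ E.O1, nq x = 1 → x.2.1 ≤ ρ →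
      (∀ y ∈ E.O1, An y → dist y x ≤ la → Est.Ab c y ∧ ∀ i, ‖fv (E.d1 c (.inl i)) y‖ ≤ δ) →
      ENNReal.ofReal (E.eta n x) ≤ ENNReal.ofReal C *
        Yz E (E.eta (n + 6)) {y | Est.Ab c y ∧ rv E.sig y ≤ rv E.sig x ∧ dist y x ≤ la}

end Vale.Agent.P354CV
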