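import Vale.Agent.P354CV.Pt2
import Vale.Agent.P354CV.Defs

/-!
The Sobolev inequality up to the lid.
-/

open scoped ENNReal
open Set Filter Topology Complex MeasureTheory

noncomputable section

namespace Vale.Agent.P354CV

open Vale.Agent.P354XG Vale.Agent.P354XD Vale.Agent.P354XI Vale.Agent.P354Z Vale.Agent.P354XW
open Vale.Agent.P354XR
open Vale.Agent.P354XF (fr)
open Vale.Agent.P354BO (q2_succ q2_nonneg)

theorem an_near {x y : E6} (hx : nq x = 1) (h : dist y x ≤ 1 / 10) : An y := by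
  rw [dist_eq_norm] at h
  have h2 := ((norm_snd_le (y - x).2).trans (norm_snd_le (y - x))).trans h
  have a := abs_le.1 ((abs_norm_sub_norm_le y.2.2.1 x.2.2.1).trans ((norm_fst_le (y - x).2.2).trans h2))
  have b := abs_le.1 ((abs_norm_sub_norm_le y.2.2.2 x.2.2.2).trans ((norm_snd_le (y - x).2.2).trans h2))
  simp only [An, nq, ← Complex.sq_norm] at hx ⊢
  have := norm_nonneg y.2.2.1
  have := norm_nonneg y.2.2.2
  have := norm_nonneg x.2.2.1
  have := norm_nonneg x.2.2.2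
  constructor <;> nlinarith [sq_nonneg (‖x.2.2.1‖ - 1), sq_nonneg (‖x.2.2.2‖ - 1)]

theorem an_norm {y : E6} (h : An y) {k : ℝ} (hk : 2 ≤ k) (hr : |y.2.1| ≤ k) : ‖y.2‖ ≤ k := by
  have a := h.2
  simp only [nq, ← Complex.sq_norm] at a
  refine norm_prod_le_iff.2 ⟨hr, norm_prod_le_iff.2 ⟨?_, ?_⟩⟩ <;>
    nlinarith [norm_nonneg y.2.2.1, norm_nonneg y.2.2.2]

theorem fv_real {O : Set E6} {f : Sm (on O)} (h : cj f = f) (y : E6) : fv f y = rv f y :=
  (conj_eq_iff_re.1 (by rw [← fv_cj, h])).symm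

/-- The Sobolev inequality for all jets on a parallelepiped. -/
theorem par_q2 : ∃ C : ℝ, 0 < C ∧ ∀ {O : Set E6} {ι : Type} [Fintype ι] (X : ι → Der (Sm (on O)))
    (κ : ℝ) (v : Fin 6 → E6) (p : E6), IsOpen O → 0 ≤ κ → bx p v ⊆ O →
    (∀ u k, ∀ y ∈ bx p v, ‖fderiv ℝ (fv u) y (v k)‖ ^ 2 ≤ κ * q2 X y 1 u) → ∀ n f,
      ENNReal.ofReal (|b6.det v| * q2 X p n f) ≤ ENNReal.ofReal (C * (2 + κ) ^ 6) *
        ∫⁻ y in bx p v, ENNReal.ofReal (q2 X y (n + 6) f) := by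
  obtain ⟨C, hC, h⟩ := par (volume : Measure E6) b6
  refine ⟨C, hC, fun {O ι} _ X κ v p hO hκ hb hd n f => ?_⟩
  have sm : ∀ u : Sm (on O), ∀ y ∈ bx p v, ContDiffAt ℝ 1 (fv u) y := fun u y hy =>
    (fv_sm hO u (hb hy)).of_le (by simp)
  have ct : ∀ n u, IntegrableOn (jq (fun j u => X j u) fv n u) (bx p v) := fun n u =>
    (jq_cont (W := fun _ => True) (fun _ _ _ => trivial) (fun u _ y hy =>
      (sm u y hy).continuousAt.continuousWithinAt) n trivial).integrableOn_compact (bx_cpt p v)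
  have a := jet_mono (X := fun j u => X j u) (W := fun _ => True) (fun _ _ _ => trivial)
    (fun u _ => h (fun j u => X j u) (fun _ => True) fv κ v p hκ (fun _ _ _ => trivial)
      (fun u _ => sm u) (fun u _ k y hy => (hd u k y hy).trans_eq (by rw [q2_jq])) u trivial) n
    (u := f) trivial
  rw [jet_mul, jet_mul, ← jet_int (W := fun _ => True) (fun _ _ _ => trivial)
    (fun u _ => ct 6 u) n trivial] at a
  simp only [q2_jq]
  rw [← ofReal_integral_eq_lintegral_ofReal (ct _ f) (ae_of_all _ fun y => jq_nonneg _ _ y),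
    ← ENNReal.ofReal_mul (by positivity)]
  refine ENNReal.ofReal_le_ofReal (a.trans (le_of_eq ?_))
  simp only [jq, jet_jet, add_comm 6 n]

theorem rv_fd {O : Set E6} (hO : IsOpen O) (f : Sm (on O)) {y : E6} (hy : y ∈ O) :
    HasFDerivAt (rv f) (reCLM.comp (fderiv ℝ (fv f) y)) y :=
  reCLM.hasFDerivAt.comp y ((fv_sm hO _ hy).differentiableAt (by simp)).hasFDerivAt

theorem G1_H (E : Est) : E.G1.H = (hp _).H := rfl
theorem G1_B (E : Est) : E.G1.Hb = (hp _).B := rfl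
theorem G1_c (E : Est) (f : Sm (on E.O1)) : E.G1.c f = cj f := rfl

/-- The two pointwise estimates for a state. -/
theorem ptE {M0 r1 : ℝ} (h0 : 0 < M0) (h1 : 0 < r1) (R : ℝ) : ∃ C m δ : ℝ, 0 < C ∧ 0 < m ∧ 0 < δ ∧
    ∀ {c : Cs} {E : Est} {y : E6}, c.M = M0 → c.r1 = r1 → E.Shape c → E.Eqs c → y ∈ E.O1 → An y →
      y.2.1 ≤ R → (∀ i, ‖fv (E.d1 c (.inl i)) y‖ ≤ δ) →
      (∀ u v, ‖fderiv ℝ (fv u) y v‖ ^ 2 ≤ C * ‖v‖ ^ 2 * q2 (fr E.G1) y 1 u) ∧
      ∀ w, ‖w‖ ≤ m → 0 ≤ fderiv ℝ (rv E.sig) y (Vt M0 ((E.M, E.a), y.2) + w) := by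
  obtain ⟨C, m, δ, hC, hm, hδ, pt⟩ := pt h0 h1 R
  refine ⟨C, m, δ, hC, hm, hδ, fun {c E y} eM er h q o ha hr hd => ?_⟩
  subst eM er
  have G := G1_is h q
  obtain ⟨a, b⟩ := pt (G := E.G1) (d := fun i => E.d1 c (.inl i)) h.co1 q.par.1 q.par.2 (G1_H E)
    (G1_B E) (f4_G1 h) o ha (h.rad1 y o).1 hr hd
  refine ⟨a, fun w hw => ?_⟩
  have sB : (hp _).B E.sig = 0 := by
    have := (cone_hp h.co1).c_H E.sig
    rw [h.b1.H, map_zero, show (hp _).c E.sig = E.sig from h.b1.re] at this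
    exact this.symm
  have sc : E.G1.c E.sig = E.sig := h.b1.re
  obtain ⟨s0, s1, s2⟩ := h.sg y o
  have e2 : ‖fv (E.G1.et E.sig) y‖ ≤ rv (E.G1.th E.sig) y + rv (E.G1.tp E.sig) y :=
    (abs_le_of_sq_le_sq' (s2.trans (by nlinarith [mul_nonneg s0 s1])) (add_nonneg s0 s1)).2
  have e3 : ‖fv (E.G1.ep E.sig) y‖ = ‖fv (E.G1.et E.sig) y‖ := by
    have := G.ep_c E.sig
    rw [sc, G1_c] at this
    rw [this, fv_cj, norm_conj]
  have e4 := G.c_th E.sig
  have e5 := G.c_tp E.sig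
  rw [sc, G1_c] at e4 e5
  rw [(rv_fd h.co1.op _ o).fderiv]
  exact b E.sig _ _ h.b1.H sB (fv_real e4 y) (fv_real e5 y) s0 s1 e2 (e3.trans_le e2) w hw

/-- The Sobolev inequality up to the lid for elements with weights. -/
theorem sobf {M0 r1 la : ℝ} (h0 : 0 < M0) (h1 : 0 < r1) (hl : 0 < la) (ρ : ℝ) (n k : ℕ) :
    ∃ C δ : ℝ, 0 < C ∧ 0 < δ ∧ ∀ (c : Cs) (E : Est), c.M = M0 → c.r1 = r1 → E.Shape c → E.Eqs c →
      ρ + 2 ≤ c.Rs → ∀ x ∈ E.O1, nq x = 1 → x.2.1 ≤ ρ →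
      (∀ y ∈ E.O1, An y → dist y x ≤ la → Est.Ab c y ∧ ∀ i, ‖fv (E.d1 c (.inl i)) y‖ ≤ δ) →
      ∀ f, Wg E.G1 k f → ENNReal.ofReal (q2 (f4 E.G1) x n f) ≤ ENNReal.ofReal C *
        Yz E (fun y => q2 (f4 E.G1) y (n + 6) f)
          {y | Est.Ab c y ∧ rv E.sig y ≤ rv E.sig x ∧ dist y x ≤ la} := by
  obtain ⟨C, m, δ, hC, hm, hδ, pt⟩ := ptE h0 h1 (ρ + 1)
  obtain ⟨R, hR⟩ : ∃ R, R = |ρ| + 2 + 5 / 4 * M0 := ⟨_, rfl⟩
  have cp := isCompact_closedBall (0 : (ℝ × ℝ) × ℝ × ℂ × ℂ) R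
  obtain ⟨V, hV⟩ := cp.exists_bound_of_continuousOn (Vt_cont h0).continuousOn
  obtain ⟨l1, l0, uc⟩ := Metric.uniformContinuousOn_iff_le.1
    (cp.uniformContinuousOn_of_continuous (Vt_cont h0).continuousOn) (m / 2) (by positivity)
  obtain ⟨D, hD, ed⟩ := edges b6 (half_pos hm)
  obtain ⟨P, hP, par⟩ := par_q2
  obtain ⟨l, p0, p1, p2, p3⟩ : ∃ l, 0 < l ∧ l ≤ la ∧ l ≤ l1 ∧ l ≤ 1 / 10 :=
    ⟨min la (min l1 (1 / 10)), by positivity, min_le_left _ _,
      (min_le_right _ _).trans (min_le_left _ _), (min_le_right _ _).trans (min_le_right _ _)⟩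
  obtain ⟨t, ht⟩ : ∃ t, t = l / (6 * (|V| + m)) := ⟨_, rfl⟩
  have t0 : 0 < t := by rw [ht]; positivity
  obtain ⟨W, hW⟩ : ∃ W : ℝ, W = (1 + 2 * (k + (n + 6) : ℕ) ^ 2) ^ (n + 6) := ⟨_, rfl⟩
  have W0 : 0 < W := by rw [hW]; positivity
  refine ⟨(t ^ 6 * D)⁻¹ * (P * (2 + C) ^ 6) * W, δ, by positivity, hδ,
    fun c E eM er h q hρ x hx nx rx hd f hf => ?_⟩
  subst eM er
  have G := G1_is h q
  have z := abs_nonneg ρ
  have z1 := le_abs_self ρ
  have mem : ∀ y ∈ E.O1, An y → y.2.1 ≤ ρ + 1 → ((E.M, E.a), y.2) ∈ Metric.closedBall 0 R :=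
    fun y hy ha hr => mem_closedBall_zero_iff.2 (norm_prod_le_iff.2 ⟨norm_prod_le_iff.2
      ⟨(abs_of_pos ((abs_nonneg _).trans_lt q.par.1)).trans_le (by linarith [q.par.2]),
        q.par.1.le.trans (by linarith [q.par.2])⟩, an_norm ha (by linarith)
          ((abs_of_pos (h.co1.pos y hy).1).trans_le (by linarith))⟩)
  have ax : An x := an_near nx (by simp)
  obtain ⟨w, w1, w2⟩ := ed (Vt c.M ((E.M, E.a), x.2))
  obtain ⟨v, hv⟩ : ∃ v : Fin 6 → E6, v = fun k => (-t) • (Vt c.M ((E.M, E.a), x.2) + w k) := ⟨_, rfl⟩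
  have v1 : ∀ k, ‖v k‖ ≤ l / 6 := fun k => by
    have := (norm_add_le _ _).trans (add_le_add ((hV _ (mem x hx ax (by linarith))).trans
      (le_abs_self V)) ((w1 k).trans (half_le_self hm.le)))
    rw [hv, norm_smul, norm_neg, Real.norm_of_nonneg t0.le]
    refine (mul_le_mul_of_nonneg_left this t0.le).trans (le_of_eq ?_)
    rw [ht]; field_simp
  have ds : ∀ y ∈ bx x v, dist y x ≤ l := fun y hy => (bx_dist v1 hy).trans (by push_cast; linarith)
  have an : ∀ y ∈ bx x v, An y := fun y hy => an_near nx ((ds y hy).trans p3)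
  have d2 : ∀ y ∈ bx x v, dist y.2 x.2 ≤ l := fun y hy => (le_max_right _ _).trans (ds y hy)
  have rr : ∀ y ∈ bx x v, y.2.1 ≤ ρ + 1 := fun y hy => by
    linarith [(abs_le.1 (show |y.2.1 - x.2.1| ≤ l from (le_max_left _ _).trans (d2 y hy))).2]
  have py := fun y (hy : y ∈ bx x v) (o : y ∈ E.O1) => pt rfl rfl h q o (an y hy) (rr y hy)
    (hd y o (an y hy) ((ds y hy).trans p1)).2
  have sub := trap_bx (σ := rv E.sig) (v := v) h.co1.op (h.cp1 _ (h.lv1 x hx)).isClosed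
    (fun y hy => hy.1) (fun y hy => (rv_fd h.co1.op _ hy).differentiableAt)
    ⟨hx, ax, le_rfl, (hd x hx ax (by simpa using hl.le)).1, by linarith⟩ (fun y hy => hy.2.2.1)
    (fun y hy o k => ?_) fun y hy o s => ⟨o, an y hy, s, (hd y o (an y hy) ((ds y hy).trans p1)).1,
      by linarith [rr y hy]⟩
  · have b1 := par (fr E.G1) C v x h.co1.op hC.le (fun y hy => (sub hy).1) (fun u k y hy =>
      ((py y hy (sub hy).1).1 u (v k)).trans (mul_le_mul_of_nonneg_right (mul_le_of_le_one_right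
        hC.le (pow_le_one₀ (norm_nonneg _) ((v1 k).trans (by linarith)))) (q2_nonneg _ _ _ _))) n f
    have b2 : q2 (f4 E.G1) x n f ≤ (t ^ 6 * D)⁻¹ * (|b6.det v| * q2 (fr E.G1) x n f) := by
      have := w2 (-t)
      rw [← hv, abs_neg, abs_of_pos t0] at this
      rw [le_inv_mul_iff₀ (by positivity)]
      exact mul_le_mul this (q4_le n f) (q2_nonneg _ _ _ _) (abs_nonneg _)
    refine (ENNReal.ofReal_le_ofReal b2).trans ?_
    rw [ENNReal.ofReal_mul (by positivity), mul_assoc _ _ W,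
      ENNReal.ofReal_mul (p := (t ^ 6 * D)⁻¹) (by positivity), mul_assoc,
      ENNReal.ofReal_mul (q := W) (by positivity), mul_assoc]
    refine mul_le_mul_right (b1.trans (mul_le_mul_right ?_ _)) _
    rw [Yz, ← lintegral_const_mul' _ _ ENNReal.ofReal_ne_top]
    refine (lintegral_mono fun y => ?_).trans (lintegral_mono_set fun y hy =>
      ⟨(sub hy).1, an y hy, (sub hy).2.2.2.1, (sub hy).2.2.1, (ds y hy).trans p1⟩)
    rw [← ENNReal.ofReal_mul W0.le, hW]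
    exact ENNReal.ofReal_le_ofReal (q6_le G _ le_rfl hf)
  have u1 := uc _ (mem x hx ax (by linarith)) _ (mem y o (an y hy) (rr y hy)) (by
    rw [Prod.dist_eq, dist_self, dist_comm]
    exact max_le l0.le ((d2 y hy).trans p2))
  have := (py y hy o).2 (Vt c.M ((E.M, E.a), x.2) - Vt c.M ((E.M, E.a), y.2) + w k) ((norm_add_le _ _).trans (by
      rw [← dist_eq_norm]; linarith [w1 k]))
  rw [← add_assoc, add_sub_cancel] at this
  rw [hv, map_smul]
  exact mul_nonpos_of_nonpos_of_nonneg (neg_nonpos.2 t0.le) this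

theorem sobc : SOBC := fun M0 r1 ρ la n h1 hl => by
  by_cases h0 : 0 < M0
  swap
  · exact ⟨1, 1, one_pos, one_pos, fun c E e _ h => absurd (e ▸ h) h0⟩
  obtain ⟨C, δ, hC, hδ, h⟩ := sobf h0 h1 hl ρ n 4
  refine ⟨2 * C, δ, by positivity, hδ, fun c E eM er _ s q hρ x hx nx rx hd => ?_⟩
  have a := h c E eM er s q hρ x hx nx rx hd
  rw [Est.eta, ENNReal.ofReal_add (q2_nonneg _ _ _ _) (q2_nonneg _ _ _ _), two_mul,
    ENNReal.ofReal_add hC.le hC.le, add_mul]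
  exact add_le_add ((a _ (wg_P0 (G1_is s q))).trans (mul_le_mul_right (Yz_le E
    (fun y => le_add_of_nonneg_right (q2_nonneg _ _ _ _)) _) _))
    ((a _ (wg_P4 (G1_is s q))).trans (mul_le_mul_right (Yz_le E
      (fun y => le_add_of_nonneg_left (q2_nonneg _ _ _ _)) _) _))

end Vale.Agent.P354CV
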