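import Vale.Agent.P354CV.Seq
import Vale.Agent.P354Z.Est

/-!
The distance to Kerr on unit slabs from the suprema of eta on unit slabs.
-/

open Finset Real

noncomputable section

namespace Vale.Agent.P354CV

open Vale.Agent.P354XG Vale.Agent.P354XD Vale.Agent.P354XI Vale.Agent.P354YH Vale.Agent.P354Z

/-- m bounds f on the unit spinors of r ≤ ρ, a ≤ t ≤ a + 1. -/
def Sup (E : Est) (f : E6 → ℝ) (ρ a m : ℝ) : Prop :=
  ∀ y ∈ E.O1, nq y = 1 → y.2.1 ≤ ρ → a ≤ y.1 → y.1 ≤ a + 1 → f y ≤ m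

/-- The square of e bounds f on the unit spinors of r ≤ ρ, t ≤ a. -/
def Ini (E : Est) (f : E6 → ℝ) (ρ a e : ℝ) : Prop :=
  ∀ y ∈ E.O1, nq y = 1 → y.2.1 ≤ ρ → y.1 ≤ a → f y ≤ e ^ 2

variable {c : Cs} {E : Est} {f : E6 → ℝ} {ρ t e q : ℝ} {m n Q : ℕ → ℝ} {w j : ℕ}

theorem Sup.min {a m m' : ℝ} (h : Sup E f ρ a m) (h' : Sup E f ρ a m') : Sup E f ρ a (min m m') :=
  fun y hy h1 h2 h3 h4 => le_min (h y hy h1 h2 h3 h4) (h' y hy h1 h2 h3 h4)

theorem Sup.mono {a m ρ' m' : ℝ} (h : Sup E f ρ a m) (h1 : ρ' ≤ ρ) (h2 : m ≤ m') :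
    Sup E f ρ' a m' := fun y hy a1 a2 a3 a4 => (h y hy a1 (a2.trans h1) a3 a4).trans h2

theorem Ini.mono {a ρ' : ℝ} (h : Ini E f ρ a e) (h1 : ρ' ≤ ρ) : Ini E f ρ' a e :=
  fun y hy a1 a2 a3 => h y hy a1 (a2.trans h1) a3

theorem le_sq_sqrt (a : ℝ) : a ≤ √a ^ 2 := by
  rw [sq_sqrt']; exact le_max_left _ _

theorem le_me {a d : ℝ} {i : ℕ} (ha : 0 ≤ a)
    (h : a * 2 ^ i ≤ e + ∑ i ∈ range (j + w + 1), m i * 2 ^ i) (hd : (j : ℝ) ≤ w + 1 + i + d) :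
    a ≤ 2 ^ (w + 1) * me e m w j * 2 ^ d := by
  have b : (2 : ℝ) ^ j ≤ 2 ^ (w + 1) * 2 ^ i * 2 ^ d := by
    rw [← rpow_natCast, ← rpow_natCast, ← rpow_natCast, ← rpow_add two_pos, ← rpow_add two_pos]
    exact rpow_le_rpow_of_exponent_le one_le_two (by push_cast; linarith)
  have b1 := mul_le_mul_of_nonneg_left h (show (0 : ℝ) ≤ 2 ^ (w + 1) * 2 ^ d by positivity)
  rw [me, ← mul_div_assoc, div_mul_eq_mul_div, le_div_iff₀ (by positivity)]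
  linarith [mul_le_mul_of_nonneg_left b ha]

theorem past_of (h1 : 0 ≤ c.t1) (h0 : 0 ≤ c.c0) (he : E.e0 ≤ e) (e0 : 0 ≤ e)
    (hi : Ini E f (ρ + 1) c.t1 e) (hs : ∀ i ≤ j + w, Sup E f (ρ + 1) (c.t1 + i) (m i))
    (ht : |t - c.t1 - j| + c.c0 ≤ w) :
    E.Past c f ρ t (2 ^ (w + 1) * me e (fun i => √(m i)) w j) := by
  have p : ∀ i ∈ range (j + w + 1), 0 ≤ √(m i) * 2 ^ i := fun _ _ => by positivity
  have a : ∀ d : ℝ, (j : ℝ) ≤ w + 1 + d → e ≤ 2 ^ (w + 1) * me e (fun i => √(m i)) w j * 2 ^ d :=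
    fun d hd => le_me (i := 0) e0 (by linarith [sum_nonneg p]) (by simpa using hd)
  have b1 := le_abs_self (t - c.t1 - j)
  have b2 := neg_abs_le (t - c.t1 - j)
  refine ⟨he.trans (a t (by linarith)), fun y hy n1 r1 t1 => ?_⟩
  rcases le_total y.1 c.t1 with k | k
  · exact (hi y hy n1 r1 k).trans (pow_le_pow_left₀ e0 (a _ (by linarith)) 2)
  · have f1 := Nat.floor_le (sub_nonneg.2 k)
    have f2 := Nat.lt_floor_add_one (y.1 - c.t1)
    have f3 : ⌊y.1 - c.t1⌋₊ ≤ j + w := Nat.floor_le_of_le (by push_cast; linarith)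
    generalize ⌊y.1 - c.t1⌋₊ = i at f1 f2 f3
    refine (hs i f3 y hy n1 r1 (by linarith) (by linarith)).trans ((le_sq_sqrt _).trans
      (pow_le_pow_left₀ (sqrt_nonneg _) (le_me (i := i) (sqrt_nonneg _) ?_ (by linarith)) 2))
    linarith [single_le_sum p (mem_range.2 (Nat.lt_succ_of_le f3))]

theorem tail_of (hi : Ini E (E.eta c.L0) (c.R1 + 4) c.t1 e) (hn : ∀ i, 0 ≤ n i)
    (hs : ∀ i : ℕ, Sup E (E.eta c.L0) (c.R1 + 4) (c.t1 + i) (n i)) (hQ : Tl n Q)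
    (ht : |t - c.t1 - j| + c.c0 ≤ w) :
    E.Tail c t (2 * ((if j < w then w * e ^ 2 else 0) + Q (j - w))) := by
  let ν : ℕ → ℝ := fun l => if l < w then e ^ 2 else n (l - w)
  have p : ∀ l, 0 ≤ ν l := fun l => by
    simp only [ν]; split_ifs
    exacts [sq_nonneg e, hn _]
  have a : ∀ k, ∑ l ∈ range k, ν (j + l) ≤ (if j < w then w * e ^ 2 else 0) + Q (j - w) := by
    intro k
    refine (sum_le_sum_of_subset_of_nonneg (range_mono (Nat.le_add_left k (w - j)))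
      fun l _ _ => p _).trans ?_
    rw [sum_range_add]
    refine add_le_add ?_ ((sum_congr rfl fun l _ => ?_).trans_le (hQ (j - w) k))
    · split_ifs with h
      · refine (sum_le_card_nsmul _ _ (e ^ 2) fun l hl => ?_).trans ?_
        · exact (if_pos (by have := mem_range.1 hl; omega)).le
        · rw [card_range, nsmul_eq_mul]
          exact mul_le_mul_of_nonneg_right (by exact_mod_cast Nat.sub_le w j) (sq_nonneg e)
      · rw [show w - j = 0 by omega, sum_range_zero]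
    · exact (if_neg (by omega)).trans (congrArg n (by omega))
  have a2 : ∀ z, j ≤ z → ∀ k, ∑ l ∈ range k, ν (z + l) ≤
      (if j < w then w * e ^ 2 else 0) + Q (j - w) := fun z hz k => by
    refine le_trans ?_ (a (z - j + k))
    rw [sum_range_add]
    exact le_add_of_nonneg_of_le (sum_nonneg fun _ _ => p _)
      (sum_congr rfl fun l _ => congrArg ν (by omega)).le
  have b : ∀ y ∈ E.O1, nq y = 1 → y.2.1 ≤ c.R1 + 4 → ∀ l : ℕ, c.t1 - w + l ≤ y.1 →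
      y.1 ≤ c.t1 - w + l + 1 → E.eta c.L0 y ≤ ν l := fun y hy n1 r1 l l1 l2 => by
    simp only [ν]
    split_ifs with h
    · have : (l : ℝ) + 1 ≤ w := by exact_mod_cast h
      exact hi y hy n1 r1 (by linarith)
    · have : ((l - w : ℕ) : ℝ) = l - w := Nat.cast_sub (not_lt.1 h)
      exact hs _ y hy n1 r1 (by linarith) (by linarith)
  have b2 := neg_abs_le (t - c.t1 - j)
  have f0 : (j : ℝ) ≤ t - c.c0 - c.t1 + w := by linarith
  have f1 := Nat.floor_le ((Nat.cast_nonneg j).trans f0)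
  have f2 := Nat.lt_floor_add_one (t - c.c0 - c.t1 + w)
  have f3 := Nat.le_floor f0
  generalize ⌊t - c.c0 - c.t1 + w⌋₊ = z at f1 f2 f3
  refine ⟨fun l => ν (z + l) + ν (z + 1 + l), fun l => add_nonneg (p _) (p _), fun k => ?_,
    fun y hy n1 r1 l l1 l2 => ?_⟩
  · rw [sum_add_distrib]
    linarith [a2 z f3 k, a2 (z + 1) (by omega) k]
  · rcases le_total y.1 (c.t1 - w + z + l + 1) with k | k
    · exact le_add_of_le_of_nonneg (b y hy n1 r1 _ (by push_cast; linarith)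
        (by push_cast; linarith)) (p _)
    · exact le_add_of_nonneg_of_le (p _) (b y hy n1 r1 _ (by push_cast; linarith)
        (by push_cast; linarith))

/-- The bound on the slab j. -/
def Lm (w : ℕ) : ℝ := 2 * (2 ^ (w + 1) * (1 + w)) ^ 2 * 2 ^ (w + 1)
def bb (e : ℝ) (m Q : ℕ → ℝ) (w j : ℕ) : ℝ := Lm w * me (e ^ 2) m w j + 8 * Q (j - w) ^ 2

theorem Lm_nn (w : ℕ) : 0 ≤ Lm w := by unfold Lm; positivity

theorem bb_nn (hm : ∀ i, 0 ≤ m i) : 0 ≤ bb e m Q w j :=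
  add_nonneg (mul_nonneg (Lm_nn w) (me_nn (sq_nonneg e) hm)) (by positivity)

theorem bb_sum (h0 : 0 ≤ q) (h3 : q ≤ 3) (hm : ∀ i, 0 ≤ m i) (k : ℕ) : sm q k (bb e m Q w) ≤
    Lm w * 2 ^ (w + 11) * (e ^ 2 + sm q (k + w) m) + 8 * sm q k fun j => Q (j - w) ^ 2 := by
  have := mul_le_mul_of_nonneg_left (me_sum (w := w) h0 h3 (sq_nonneg e) hm k) (Lm_nn w)
  unfold bb
  rw [sm_add, sm_mul, sm_mul]
  linarith

/-- The distance to Kerr on the slab j. -/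
theorem mem (h1 : 0 ≤ c.t1) (h0 : 0 ≤ c.c0) (hN : E.Near c) (hρ : c.R1 + 3 ≤ ρ) (he : E.e0 ≤ e)
    (e1 : e ≤ 1) (hi : Ini E (E.eta c.L0) (ρ + 1) c.t1 e) (hm : ∀ i, 0 ≤ m i) (hn : ∀ i, 0 ≤ n i)
    (hs : ∀ i ≤ j + w, Sup E (E.eta c.L0) (ρ + 1) (c.t1 + i) (m i))
    (ht : ∀ i : ℕ, Sup E (E.eta c.L0) (c.R1 + 4) (c.t1 + i) (n i)) (hQ : Tl n Q) {x : E6}
    (hx : x ∈ E.O1) (ha : An x) (hr : x.2.1 ≤ ρ) (hw : |x.1 - c.t1 - j| + c.c0 ≤ w)
    (i : (Fin 4 × Fin 6) ⊕ Fin 13) :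
    q2 (lt (hp _) (E.p1 c)) x c.N0 (E.d1 c i) ≤ c.C ρ ^ 2 * bb e m Q w j ∧ (Est.Fa c x →
      q2 (lt (hp _) (E.p2 c)) x c.N0 (E.d2 c i) ≤ c.C ρ ^ 2 * bb e m Q w j) := by
  have e0 := hN.e0.trans he
  have P := past_of h1 h0 he e0 hi hs hw
  have T := tail_of (hi.mono (by linarith)) hn ht hQ hw
  have z := me_nn (w := w) (j := j) e0 fun i => sqrt_nonneg (m i)
  have Q0 : 0 ≤ Q (j - w) := le_trans (by simp) (hQ (j - w) 0)
  have a : (if j < w then w * e ^ 2 else 0) ≤ w * (2 ^ w * me e (fun i => √(m i)) w j) := by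
    split_ifs with h
    · refine mul_le_mul_of_nonneg_left ?_ (Nat.cast_nonneg w)
      have : (j : ℝ) + 1 ≤ w := by exact_mod_cast h
      have p : 0 ≤ ∑ i ∈ range (j + w + 1), √(m i) * 2 ^ i := by positivity
      have := le_me (i := 0) (d := -1) (w := w) (j := j) (m := fun i => √(m i)) (e := e) e0
        (by linarith) (by push_cast; linarith)
      rw [rpow_neg_one, pow_succ] at this
      nlinarith
    · positivity
  have b : (2 ^ (w + 1) * me e (fun i => √(m i)) w j +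
      2 * ((if j < w then w * e ^ 2 else 0) + Q (j - w))) ^ 2 ≤ bb e m Q w j := by
    have b0 : 0 ≤ if j < w then w * e ^ 2 else (0 : ℝ) := by split_ifs <;> positivity
    have b1 := pow_le_pow_left₀ (by positivity) (show 2 ^ (w + 1) * me e (fun i => √(m i)) w j +
      2 * ((if j < w then w * e ^ 2 else 0) + Q (j - w)) ≤ 2 ^ (w + 1) * (1 + w) *
        me e (fun i => √(m i)) w j + 2 * Q (j - w) by rw [pow_succ]; linarith) 2
    have b2 := mul_le_mul_of_nonneg_left (me_sq (e := e) (w := w) (j := j) hm)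
      (sq_nonneg (2 ^ (w + 1) * (1 + w : ℝ)))
    rw [bb, Lm]
    nlinarith [sq_nonneg (2 ^ (w + 1) * (1 + w) * me e (fun i => √(m i)) w j - 2 * Q (j - w))]
  have b3 := mul_le_mul_of_nonneg_left b (sq_nonneg (c.C ρ))
  rw [← mul_pow] at b3
  exact ⟨(hN.n1 ρ hρ x hx ha hr _ _ P T i).trans b3,
    fun hF => (hN.n2 ρ hρ x hx ha hr hF _ _ P T i).trans b3⟩

variable {s ε : ℝ} {L : ℕ}

theorem dec_sup (h1 : 0 ≤ c.t1) (hs : 0 ≤ s) (h : E.Dec L s ε) (ρ : ℝ) (i : ℕ) :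
    Sup E (E.eta L) ρ (c.t1 + i) (ε ^ 2 * wt (-(2 * s)) i) := fun y hy n1 _ t1 _ => by
  refine (h y hy n1).trans ?_
  rw [mul_pow, show -(2 * s) = -s + -s by ring, wt_add, ← sq]
  refine mul_le_mul_of_nonneg_left (pow_le_pow_left₀ (by positivity) ?_ 2) (sq_nonneg ε)
  exact rpow_le_rpow_of_nonpos (by positivity) (by linarith [le_abs_self y.1]) (by linarith)

theorem dec_ini (hs : 0 ≤ s) (h : E.Dec L s ε) (he : |ε| ≤ e) (ρ a : ℝ) :
    Ini E (E.eta L) ρ a e := fun y hy n1 _ _ => by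
  refine (h y hy n1).trans ?_
  rw [mul_pow]
  have a1 : ((1 + |y.1|) ^ (-s)) ^ 2 ≤ 1 := pow_le_one₀ (by positivity)
    (rpow_le_one_of_one_le_of_nonpos (by linarith [abs_nonneg y.1]) (by linarith))
  exact (mul_le_of_le_one_right (sq_nonneg ε) a1).trans (sq_le_sq' (by
    linarith [neg_abs_le ε]) ((le_abs_self ε).trans he))

theorem wt_dec (ε s : ℝ) (i : ℕ) : wt (2 * s) i * (ε ^ 2 * wt (-(2 * s)) i) ≤ ε ^ 2 := by
  rw [mul_left_comm, mul_comm (wt _ _), wt_neg, mul_one]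

/-- The decay of the distance to Kerr from the decay of eta. -/
theorem bootp (hs : 1 < s) (h3 : 2 * s ≤ 3) (w : ℕ) : ∃ C, 0 ≤ C ∧ ∀ {c : Cs} {E : Est}
    {ε ρ : ℝ}, 0 ≤ c.t1 → 0 ≤ c.c0 → E.Near c → E.Dec c.L0 s ε → 0 ≤ ε → E.e0 + ε ≤ 1 →
    c.R1 + 3 ≤ ρ → ∀ (j : ℕ) (x : E6), x ∈ E.O1 → An x → x.2.1 ≤ ρ →
    |x.1 - c.t1 - j| + c.c0 ≤ w → ∀ i, q2 (lt (hp _) (E.p1 c)) x c.N0 (E.d1 c i) ≤
      (c.C ρ * C * (E.e0 + ε) * wt (-s) j) ^ 2 ∧ (Est.Fa c x →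
        q2 (lt (hp _) (E.p2 c)) x c.N0 (E.d2 c i) ≤ (c.C ρ * C * (E.e0 + ε) * wt (-s) j) ^ 2) := by
  obtain ⟨A, hA, tA⟩ := tl_pt hs
  have z : 0 ≤ Lm w * 2 ^ (w + 11) * 2 + 8 * (A * wt s w) ^ 2 := by
    have := Lm_nn w; positivity
  refine ⟨√(Lm w * 2 ^ (w + 11) * 2 + 8 * (A * wt s w) ^ 2), sqrt_nonneg _,
    fun {c E ε ρ} h1 h0 hN hD e0 e1 hρ j x hx ha hr hw i => ?_⟩
  have p : ∀ i, 0 ≤ ε ^ 2 * wt (-(2 * s)) i := fun i => mul_nonneg (sq_nonneg ε) (wt_pos _ _).le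
  have k0 := hN.e0
  have M := mem h1 h0 hN hρ (le_add_of_nonneg_right e0) e1 (dec_ini (by linarith) hD
    (by rw [abs_of_nonneg e0]; linarith) _ _) p p (fun i _ => dec_sup h1 (by linarith) hD _ i)
    (dec_sup h1 (by linarith) hD _) (tA (by linarith) (sq_nonneg ε) (wt_dec ε s)) hx ha hr hw i
  have b1 := mul_le_mul_of_nonneg_left (me_pt (w := w) (by linarith) h3 (sq_nonneg (E.e0 + ε)) p
    (wt_dec ε s) j) (wt_pos (-(2 * s)) j).le
  rw [← mul_assoc, wt_neg, one_mul, show -(2 * s) = -s + -s by ring, wt_add, ← sq] at b1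
  have e2 : ε ^ 2 ≤ (E.e0 + ε) ^ 2 := pow_le_pow_left₀ e0 (by linarith) 2
  have e3 : ε ^ 2 ≤ E.e0 + ε := by nlinarith
  have b2 : A * ε ^ 2 * wt (s - 2 * s) (j - w) ≤ A * wt s w * ((E.e0 + ε) * wt (-s) j) := by
    rw [show s - 2 * s = -s by ring]
    linarith [mul_le_mul_of_nonneg_left (mul_le_mul e3 (wt_shift (q := s) (by linarith) j w)
      (wt_pos _ _).le (by linarith)) hA]
  have b3 := pow_le_pow_left₀ (mul_nonneg (mul_nonneg hA (sq_nonneg ε)) (wt_pos _ _).le) b2 2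
  have b4 := mul_le_mul_of_nonneg_left e2 (show 0 ≤ wt (-s) j ^ 2 * 2 ^ (w + 11) by positivity)
  have b5 := mul_le_mul_of_nonneg_left (b1.trans (show _ ≤ 2 ^ (w + 11) * 2 *
    ((E.e0 + ε) * wt (-s) j) ^ 2 by linarith)) (Lm_nn w)
  have b : c.C ρ ^ 2 * bb (E.e0 + ε) (fun i => ε ^ 2 * wt (-(2 * s)) i)
      (fun j => A * ε ^ 2 * wt (s - 2 * s) j) w j ≤ (c.C ρ * √(Lm w * 2 ^ (w + 11) * 2 +
        8 * (A * wt s w) ^ 2) * (E.e0 + ε) * wt (-s) j) ^ 2 := by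
    rw [mul_assoc, mul_assoc, mul_pow (c.C ρ), mul_pow (√_), sq_sqrt z, bb]
    refine mul_le_mul_of_nonneg_left ?_ (sq_nonneg _)
    rw [show -(2 * s) = -s + -s by ring]
    linarith
  exact ⟨M.1.trans b, fun hF => (M.2 hF).trans b⟩

end Vale.Agent.P354CV
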