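import Vale.Agent.P354XW.Sob
import Vale.Agent.P354BO.Q2
import Vale.Agent.P354CV.Bas

/-!
Parallelepipeds which stay below a level, and jets of elements with weights.
-/

open Set Filter Topology Module

noncomputable section

namespace Vale.Agent.P354CV

open Vale.Agent.P354XG Vale.Agent.P354XD Vale.Agent.P354XI Vale.Agent.P354Z Vale.Agent.P354XW
open Vale.Agent.P354XF (fr)
open Vale.Agent.P354BO (q2_succ q2_nonneg q2_smul)

section geo
variable {E : Type} [NormedAddCommGroup E] [NormedSpace ℝ E]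

/-- A segment along which σ decreases stays in the closed sublevel set. -/
theorem trap {O K : Set E} (hO : IsOpen O) (hK : IsClosed K) (KO : K ⊆ O) {σ : E → ℝ} {p w : E}
    (hd : ∀ y ∈ O, DifferentiableAt ℝ σ y) (hp : p ∈ K) (Kσ : ∀ y ∈ K, σ y ≤ σ p)
    (hw : ∀ s ∈ Icc (0 : ℝ) 1, p + s • w ∈ O → fderiv ℝ σ (p + s • w) w ≤ 0)
    (hs : ∀ s ∈ Icc (0 : ℝ) 1, p + s • w ∈ O → σ (p + s • w) ≤ σ p → p + s • w ∈ K) :
    p + w ∈ K := by
  have ct : Continuous fun s : ℝ => p + s • w := by fun_prop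
  have d : ∀ s : ℝ, p + s • w ∈ O → HasDerivAt (fun s : ℝ => σ (p + s • w))
      (fderiv ℝ σ (p + s • w) w) s := fun s h => by
    have := (hd _ h).hasFDerivAt.comp_hasDerivAt s (((hasDerivAt_id s).smul_const w).const_add p)
    rwa [one_smul] at this
  have := IsClosed.Icc_subset_of_forall_mem_nhdsWithin (s := {s : ℝ | p + s • w ∈ K}) (a := 0)
    (b := 1) ((hK.preimage ct).inter isClosed_Icc) (by simpa using hp) (fun x hx => ?_)
    (right_mem_Icc.2 zero_le_one)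
  · simpa using this
  obtain ⟨u, hu, su⟩ := mem_nhdsGE_iff_exists_Icc_subset.1 (mem_nhdsWithin_of_mem_nhds
    (inter_mem ((hO.preimage ct).mem_nhds (KO hx.1)) (Iic_mem_nhds hx.2.2)))
  have m : ∀ z ∈ Icc x u, z ∈ Icc (0 : ℝ) 1 := fun z hz => ⟨hx.2.1.trans hz.1, (su hz).2⟩
  have an := antitoneOn_of_deriv_nonpos (convex_Icc x u)
    (fun z hz => (d z (su hz).1).continuousAt.continuousWithinAt)
    (fun z hz => (d z (su (interior_subset hz)).1).differentiableAt.differentiableWithinAt)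
    fun z hz => by
      rw [(d z (su (interior_subset hz)).1).deriv]
      exact hw z (m z (interior_subset hz)) (su (interior_subset hz)).1
  refine mem_of_superset (Ioc_mem_nhdsGT hu) fun z hz => ?_
  have hz' : z ∈ Icc x u := ⟨hz.1.le, hz.2⟩
  exact hs z (m z hz') (su hz').1 ((an (left_mem_Icc.2 hu.le) hz' hz'.1).trans (Kσ _ hx.1))

theorem bx_seg {n : ℕ} {p : E} {v : Fin n → E} {t : Fin n → ℝ} (ht : ∀ k, 0 ≤ t k ∧ t k ≤ 1)
    {s : ℝ} (hs : s ∈ Icc (0 : ℝ) 1) : p + s • ∑ k, t k • v k ∈ bx p v :=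
  mem_bx.2 ⟨fun k => s * t k, fun k => ⟨mul_nonneg hs.1 (ht k).1, mul_le_one₀ hs.2 (ht k).1
    (ht k).2⟩, by simp only [Finset.smul_sum, smul_smul]⟩

/-- The same for a parallelepiped. -/
theorem trap_bx {O K : Set E} (hO : IsOpen O) (hK : IsClosed K) (KO : K ⊆ O) {σ : E → ℝ} {p : E}
    {n : ℕ} {v : Fin n → E} (hd : ∀ y ∈ O, DifferentiableAt ℝ σ y) (hp : p ∈ K)
    (Kσ : ∀ y ∈ K, σ y ≤ σ p) (hw : ∀ y ∈ bx p v, y ∈ O → ∀ k, fderiv ℝ σ y (v k) ≤ 0)
    (hs : ∀ y ∈ bx p v, y ∈ O → σ y ≤ σ p → y ∈ K) : bx p v ⊆ K := fun y hy => by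
  obtain ⟨t, ht, rfl⟩ := mem_bx.1 hy
  refine trap hO hK KO hd hp Kσ (fun s h o => ?_) fun s h => hs _ (bx_seg ht h)
  rw [map_sum]
  exact Finset.sum_nonpos fun k _ => by
    rw [map_smul]; exact mul_nonpos_of_nonneg_of_nonpos (ht k).1 (hw _ (bx_seg ht h) o k)

theorem bx_dist {n : ℕ} {p y : E} {v : Fin n → E} {a : ℝ} (h : ∀ k, ‖v k‖ ≤ a) (hy : y ∈ bx p v) :
    dist y p ≤ n * a := by
  obtain ⟨t, ht, rfl⟩ := mem_bx.1 hy
  rw [dist_self_add_left]
  refine (norm_sum_le _ _).trans ((Finset.sum_le_card_nsmul _ _ a fun k _ => ?_).trans (by simp))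
  rw [norm_smul, Real.norm_of_nonneg (ht k).1]
  exact (mul_le_of_le_one_left (norm_nonneg _) (ht k).2).trans (h k)

/-- Edges near a given direction with a determinant which is bounded below. -/
theorem edges {n : ℕ} (b : Basis (Fin n) ℝ E) {m : ℝ} (hm : 0 < m) : ∃ D, 0 < D ∧ ∀ V : E,
    ∃ w : Fin n → E, (∀ k, ‖w k‖ ≤ m) ∧ ∀ l : ℝ, |l| ^ n * D ≤ |b.det fun k => l • (V + w k)| := by
  have z : 0 < 1 + ∑ k, ‖b k‖ := by positivity
  refine ⟨(m / (1 + ∑ k, ‖b k‖)) ^ n, by positivity, fun V => ?_⟩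
  obtain ⟨s, s1, s2⟩ : ∃ s : ℝ, |s| = m / (1 + ∑ k, ‖b k‖) ∧ 0 ≤ s⁻¹ * ∑ i, b.repr V i := by
    rcases le_total 0 (∑ i, b.repr V i) with c | c
    · exact ⟨_, abs_of_pos (by positivity), by positivity⟩
    · exact ⟨-(m / (1 + ∑ k, ‖b k‖)), by rw [abs_neg, abs_of_pos (by positivity)],
        mul_nonneg_of_nonpos_of_nonpos (inv_nonpos.2 (neg_nonpos.2 (by positivity))) c⟩
  have s0 : s ≠ 0 := abs_pos.1 (s1 ▸ by positivity)
  refine ⟨fun k => s • b k, fun k => ?_, fun l => ?_⟩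
  · rw [norm_smul, Real.norm_eq_abs, s1, div_mul_eq_mul_div, div_le_iff₀ z]
    exact mul_le_mul_of_nonneg_left (le_add_of_nonneg_of_le zero_le_one (Finset.single_le_sum
      (f := fun k => ‖b k‖) (fun _ _ => norm_nonneg _) (Finset.mem_univ k))) hm.le
  have e : b.toMatrix (fun k => l • (V + s • b k)) = (l * s) • (1 + Matrix.replicateCol Unit
      (fun i => s⁻¹ * b.repr V i) * Matrix.replicateRow Unit
      fun _ : Fin n => (1 : ℝ)) := by
    ext i j
    simp only [Basis.toMatrix_apply, map_smul, map_add, Basis.repr_self, Finsupp.smul_apply,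
      Finsupp.add_apply, Finsupp.single_apply, smul_eq_mul, Matrix.smul_apply, Matrix.add_apply,
      Matrix.one_apply, Matrix.mul_apply, Matrix.replicateCol_apply, Matrix.replicateRow_apply,
      Finset.univ_unique, Finset.sum_singleton, eq_comm (a := j)]
    field_simp
    ring
  rw [Basis.det_apply, e, Matrix.det_smul, Matrix.det_one_add_replicateCol_mul_replicateRow,
    Fintype.card_fin, abs_mul, abs_pow, abs_mul, s1, mul_pow]
  refine le_mul_of_one_le_right (by positivity) (le_trans ?_ (le_abs_self _))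
  simpa [dotProduct, ← Finset.mul_sum] using s2

end geo

section wt
variable {A : Type} [CommRing A] [Algebra ℂ A] {G : GHP A} {k : ℕ} {f : A}

/-- An element with weights of size at most k. -/
def Wg (G : GHP A) (k : ℕ) (f : A) : Prop :=
  ∃ p q : ℤ, |p| ≤ k ∧ |q| ≤ k ∧ G.H f = p * f ∧ G.Hb f = q * f

theorem Wg.f4 (h : G.Is) (hf : Wg G k f) (b : Fin 4) : Wg G (k + 1) (f4 G b f) := by
  obtain ⟨p, q, hp, hq, e1, e2⟩ := hf
  have a : ∀ {p : ℤ}, |p| ≤ k → |p + 1| ≤ (k + 1 : ℕ) ∧ |p - 1| ≤ (k + 1 : ℕ) := fun h => by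
    have := abs_le.1 h
    simp only [abs_le]; push_cast; omega
  have d : ∀ (D : Der A) (p : ℤ), D (p * f) = p * D f := fun D p => by
    rw [D_mul, D.map_intCast, mul_zero, add_zero]
  have r : ∀ (D : Der A) {p : ℤ} {g : A}, g = p * f → D g + D f = (p + 1 : ℤ) * D f ∧
      D g - D f = (p - 1 : ℤ) * D f := fun D p g e => by
    rw [e, d]; push_cast; constructor <;> ring
  fin_cases b
  · exact ⟨_, _, (a hp).1, (a hq).1, (h.H_th f).trans (r _ e1).1, (h.Hb_th f).trans (r _ e2).1⟩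
  · exact ⟨_, _, (a hp).2, (a hq).2, (h.H_tp f).trans (r _ e1).2, (h.Hb_tp f).trans (r _ e2).2⟩
  · exact ⟨_, _, (a hp).1, (a hq).2, (h.H_et f).trans (r _ e1).1, (h.Hb_et f).trans (r _ e2).2⟩
  · exact ⟨_, _, (a hp).2, (a hq).1, (h.H_ep f).trans (r _ e1).2, (h.Hb_ep f).trans (r _ e2).1⟩

theorem wg_P0 (h : G.Is) : Wg G 4 G.P0 :=
  ⟨4, 0, by norm_num, by norm_num, h.H_P0.trans (by norm_num), h.Hb_P0.trans (by norm_num)⟩

theorem wg_P4 (h : G.Is) : Wg G 4 G.P4 :=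
  ⟨-4, 0, by norm_num, by norm_num, h.H_P4.trans (by norm_num), h.Hb_P4.trans (by norm_num)⟩

end wt

variable {O : Set E6} {G : GHP (Sm (on O))} {y : E6}

theorem q2_jq {ι : Type} [Fintype ι] (X : ι → Der (Sm (on O))) (n : ℕ) (f : Sm (on O)) :
    q2 X y n f = jq (fun j u => X j u) fv n f y := by
  induction n generalizing f with
  | zero => rfl
  | succ n ih => simp only [q2_succ, ih, jq, jet_succ]

theorem fr_sum (n : ℕ) (f : Sm (on O)) : ∑ b, q2 (fr G) y n (fr G b f) =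
    ∑ b, q2 (fr G) y n (f4 G b f) + (q2 (fr G) y n (G.H f) + q2 (fr G) y n (G.Hb f)) := by
  simp only [Fin.sum_univ_six, Fin.sum_univ_four, ← add_assoc]; rfl

theorem q4_le (n : ℕ) (f : Sm (on O)) : q2 (f4 G) y n f ≤ q2 (fr G) y n f := by
  induction n generalizing f with
  | zero => exact le_rfl
  | succ n ih =>
    rw [q2_succ, q2_succ, fr_sum]
    exact add_le_add (ih f) (le_add_of_le_of_nonneg (Finset.sum_le_sum fun b _ => ih _)
      (add_nonneg (q2_nonneg _ _ _ _) (q2_nonneg _ _ _ _)))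

theorem q6_le (h : G.Is) {N : ℕ} (n : ℕ) {k : ℕ} (hk : k + n ≤ N) {f : Sm (on O)}
    (hf : Wg G k f) : q2 (fr G) y n f ≤ (1 + 2 * N ^ 2) ^ n * q2 (f4 G) y n f := by
  induction n generalizing f k with
  | zero => rw [pow_zero, one_mul]; exact le_rfl
  | succ n ih =>
    have i1 := ih (by omega) hf
    have i2 := Finset.sum_le_sum fun b (_ : b ∈ Finset.univ) => ih (by omega) (hf.f4 h b)
    obtain ⟨p, q, hp, hq, e1, e2⟩ := hf
    have a : ∀ {p : ℤ}, |p| ≤ k → q2 (fr G) y n (p * f) ≤ N ^ 2 * q2 (fr G) y n f := fun {p} hp => by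
      rw [← map_intCast (algebraMap ℂ (Sm (on O))), ← Algebra.smul_def, q2_smul, Complex.norm_intCast]
      refine mul_le_mul_of_nonneg_right (pow_le_pow_left₀ (abs_nonneg _) ?_ 2) (q2_nonneg _ _ _ _)
      exact_mod_cast hp.trans (by omega)
    have z : 0 ≤ (1 + 2 * N ^ 2 : ℝ) ^ n * ∑ b, q2 (f4 G) y n (f4 G b f) :=
      mul_nonneg (by positivity) (Finset.sum_nonneg fun _ _ => q2_nonneg _ _ _ _)
    rw [← Finset.mul_sum] at i2
    rw [q2_succ, q2_succ, fr_sum, e1, e2, pow_succ]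
    nlinarith [a hp, a hq, mul_le_mul_of_nonneg_left i1 (sq_nonneg (N : ℝ)),
      mul_nonneg (sq_nonneg (N : ℝ)) z]

end Vale.Agent.P354CV
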