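import Vale.Agent.P354XW.Sob6
import Vale.Agent.P354CV.Box

/-!
The frame at one point: the coordinate fields are bounded by the frame, and a field which is
uniformly timelike.
-/

open Set Filter Topology Complex

noncomputable section

namespace Vale.Agent.P354CV

open Vale.Agent.P354XG Vale.Agent.P354XD Vale.Agent.P354XI Vale.Agent.P354Z Vale.Agent.P354XW
open Vale.Agent.P354XR
open Vale.Agent.P354XG.Geo (hf two_hf)
open Vale.Agent.P354XF (fr)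
open Vale.Agent.P354BF (De)

section alg
variable {A : Type} [CommRing A] [Algebra ℂ A]

theorem gens {K : KC A} (h : K.Is) (φ : A →+* ℂ) (hc : ∀ f, φ (K.c f) = starRingEnd ℂ (φ f))
    {r a : ℝ} (hr : φ K.r = r) (ha : φ K.a = a) (r0 : 0 < r) : ∃ X : ℝ, φ K.x = X ∧ |X| ≤ 1 ∧
      ‖φ K.s‖ ≤ 1 ∧ ‖φ K.sb‖ ≤ 1 ∧ ‖φ K.sg‖ ≤ (r ^ 2)⁻¹ := by
  have e1 := hc K.x
  have e2 := hc K.s
  have e3 := congrArg φ h.hs
  have e4 := congrArg φ h.hg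
  rw [h.c_x] at e1
  rw [h.c_s] at e2
  obtain ⟨X, hX⟩ := conj_eq_iff_real.1 e1.symm
  simp only [map_mul, map_add, map_sub, map_one, e2, hX, hr, ha, mul_conj] at e3 e4
  have e5 : ‖φ K.s‖ ^ 2 = 1 - X * X := by rw [Complex.sq_norm]; exact_mod_cast e3
  have e6 : ‖φ K.sg‖ * (r * r + a * a * X * X) = 1 := by
    have := congrArg norm e4
    rw [norm_mul, norm_one, show ((r * r + a * a * X * X : ℂ)) = (r * r + a * a * X * X : ℝ) by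
      push_cast; ring, norm_real, Real.norm_of_nonneg (by nlinarith [mul_self_nonneg (a * X)])]
      at this
    exact this
  have e7 : ‖φ K.s‖ ≤ 1 := by nlinarith [norm_nonneg (φ K.s), mul_self_nonneg X]
  refine ⟨X, hX, abs_le_one_iff_mul_self_le_one.2 (by nlinarith [sq_nonneg ‖φ K.s‖]), e7,
    by rwa [e2, norm_conj], ?_⟩
  rw [← one_div, le_div_iff₀ (by positivity)]
  nlinarith [mul_nonneg (norm_nonneg (φ K.sg)) (mul_self_nonneg (a * X))]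

/-- The chart with given values of the generators. -/
def k9 (r x s sb N Ni sg a M : ℂ) : KC ℂ := ⟨RingHom.id ℂ, 0, 0, 0, 0, 0, 0, r, x, s, sb, N, Ni, sg, a, M⟩

theorem cK_val (K : KC A) (φ : A →+* ℂ) (hφ : ∀ z, φ (algebraMap ℂ A z) = z) (b : Fin 6) :
    φ (K.cK 0 b) = (k9 (φ K.r) (φ K.x) (φ K.s) (φ K.sb) (φ K.N) (φ K.Ni) (φ K.sg) (φ K.a)
      (φ K.M)).cK 0 b := by
  fin_cases b <;> simp only [KC.cK, Fin.reduceFinMk, Matrix.cons_val, KC.z, KC.zb, KC.De, k9, hf,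
    ii, map_mul, map_add, map_sub, map_neg, map_ofNat, hφ, Algebra.algebraMap_self,
    RingHom.id_apply]

theorem xe_val (K : KC A) (φ : A →+* ℂ) (hφ : ∀ z, φ (algebraMap ℂ A z) = z) (e b : Fin 6) :
    φ (K.xe e b) = (k9 (φ K.r) (φ K.x) (φ K.s) (φ K.sb) (φ K.N) (φ K.Ni) (φ K.sg) (φ K.a)
      (φ K.M)).xe e b := by
  have c := cK_val K φ hφ b
  fin_cases e <;> simp only [KC.xe, Fin.reduceFinMk, Matrix.cons_val, map_add, map_mul, c] <;>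
    fin_cases b <;> simp only [Fin.reduceFinMk, Matrix.cons_val, k9, ii, map_mul, map_add,
      map_sub, map_neg, map_zero, map_one, hφ, Algebra.algebraMap_self, RingHom.id_apply]

theorem xe_bd (k : ℝ) (hk : 0 ≤ k) : ∃ C, 0 < C ∧ ∀ {r x s sb N Ni sg a M : ℂ}, ‖r‖ ≤ k → ‖x‖ ≤ k →
    ‖s‖ ≤ k → ‖sb‖ ≤ k → ‖N‖ ≤ k → ‖Ni‖ ≤ k → ‖sg‖ ≤ k → ‖a‖ ≤ k → ‖M‖ ≤ k →
    ∀ e b, ‖(k9 r x s sb N Ni sg a M).xe e b‖ ≤ C := by
  have ct : Continuous fun g : Fin 9 → ℂ =>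
      (k9 (g 0) (g 1) (g 2) (g 3) (g 4) (g 5) (g 6) (g 7) (g 8)).xe :=
    continuous_pi fun e => continuous_pi fun b => by
      fin_cases e <;> fin_cases b <;> simp only [KC.xe, KC.cK, Fin.reduceFinMk, Matrix.cons_val,
        KC.z, KC.zb, KC.De, k9] <;> fun_prop
  obtain ⟨C, h⟩ := (isCompact_closedBall (0 : Fin 9 → ℂ) k).exists_bound_of_continuousOn
    ct.continuousOn
  refine ⟨|C| + 1, by positivity, fun {r x s sb N Ni sg a M} h0 h1 h2 h3 h4 h5 h6 h7 h8 e b => ?_⟩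
  have := h ![r, x, s, sb, N, Ni, sg, a, M] (mem_closedBall_zero_iff.2
    ((pi_norm_le_iff_of_nonneg hk).2 fun i => by fin_cases i <;> assumption))
  have := ((norm_le_pi_norm ((k9 r x s sb N Ni sg a M).xe e) b).trans
    (norm_le_pi_norm (k9 r x s sb N Ni sg a M).xe e)).trans this
  linarith [le_abs_self C]

theorem sum6 {a b : Fin 6 → ℂ} {x z : ℝ} (ha : ∀ i, ‖a i‖ ≤ x) (hb : ∀ i, ‖b i‖ ≤ z) :
    ‖∑ i, a i * b i‖ ≤ 6 * (x * z) :=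
  (norm_sum_le _ _).trans ((Finset.sum_le_card_nsmul _ _ (x * z) fun i _ => (norm_mul_le _ _).trans
    (mul_le_mul (ha i) (hb i) (norm_nonneg _) ((norm_nonneg _).trans (ha i)))).trans (by simp))

/-- The basis is bounded by a frame which is close to the frame of Kerr. -/
theorem core {K : KC A} (h : K.Is) {φ : A →+* ℂ} {C δ γ : ℝ} (hC : 0 < C) (hδ : 72 * C * δ ≤ 1)
    (xe : ∀ e b, ‖φ (K.xe e b)‖ ≤ C) {G : GHP A} (gH : G.H = K.H) (gB : G.Hb = K.B)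
    {d : Fin 4 × Fin 6 → A} (hd : ∀ i, ‖φ (d i)‖ ≤ δ) {u : A}
    (e : ∀ b, f4 G b u = f4 K.kerr b u + ∑ e, d (b, e) * K.bs e u)
    (hg : ∀ b, ‖φ (fr G b u)‖ ≤ γ) : (∀ e, ‖φ (K.bs e u)‖ ≤ 12 * C * γ) ∧
      ∀ b, ‖φ (f4 G b u) - φ (f4 K.kerr b u)‖ ≤ 72 * C * δ * γ := by
  obtain ⟨β, hβ⟩ : ∃ β, β = ‖fun e => φ (K.bs e u)‖ := ⟨_, rfl⟩
  have lb : ∀ e, ‖φ (K.bs e u)‖ ≤ β := fun e => hβ ▸ norm_le_pi_norm (fun e => φ (K.bs e u)) e
  have β0 := (norm_nonneg _).trans (lb 0)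
  have γ0 := (norm_nonneg _).trans (hg 0)
  have δ0 := (norm_nonneg _).trans (hd 0)
  have z3 : 0 ≤ 6 * (δ * β) := by positivity
  have a3 : ∀ b, ‖φ (f4 G b u) - φ (f4 K.kerr b u)‖ ≤ 6 * (δ * β) := fun b => by
    rw [e, map_add, add_sub_cancel_left, map_sum]
    simp only [map_mul]
    exact sum6 (fun e => hd _) lb
  have a4 : ∀ b : Fin 4, ‖φ (f4 K.kerr b u)‖ ≤ γ + 6 * (δ * β) := fun b => by
    have := hg (b.castAdd 2)
    rw [fr_f4] at this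
    linarith [norm_sub_norm_le (φ (f4 K.kerr b u)) (φ (f4 G b u)), a3 b,
      norm_sub_rev (φ (f4 K.kerr b u)) (φ (f4 G b u))]
  have a6 : ∀ b, ‖φ (fr K.kerr b u)‖ ≤ γ + 6 * (δ * β) := fun b => by
    have g4 : ‖φ (G.H u)‖ ≤ γ := hg 4
    have g5 : ‖φ (G.Hb u)‖ ≤ γ := hg 5
    rw [gH] at g4
    rw [gB] at g5
    fin_cases b
    exacts [a4 0, a4 1, a4 2, a4 3, le_add_of_le_of_nonneg g4 z3, le_add_of_le_of_nonneg g5 z3]
  have a7 : β ≤ 6 * (C * (γ + 6 * (δ * β))) := by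
    refine hβ.trans_le ((pi_norm_le_iff_of_nonneg (by positivity)).2 fun e => ?_)
    rw [h.bs_xe, map_sum]
    simp only [map_mul]
    exact sum6 (xe e) a6
  have a8 : β ≤ 12 * C * γ := by linarith [mul_le_mul_of_nonneg_right hδ β0]
  exact ⟨fun e => (lb e).trans a8, fun b => (a3 b).trans (by
    linarith [mul_le_mul_of_nonneg_left a8 δ0])⟩

theorem d1_le {K : Hp A} {p : Pm A} {φ : A →+* ℂ} (hφ : ∀ z, φ (algebraMap ℂ A z) = z) {J β : ℝ}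
    (b1 : ‖φ (kk K p).x‖ ≤ 1) (b2 : ‖φ (kk K p).s‖ ≤ 1) (b3 : ‖φ (kk K p).sb‖ ≤ 1)
    (j1 : ‖φ p.h1‖ ≤ J) (j2 : ‖φ p.j1‖ ≤ J) {u : A} (lb : ∀ e, ‖φ ((kk K p).bs e u)‖ ≤ β) :
    ‖φ (K.d 1 u)‖ ≤ (1 + 7 * J) * β := by
  have i1 : ‖φ (ii A)‖ = 1 := (congrArg norm (hφ I)).trans norm_I
  have J0 := (norm_nonneg _).trans j1
  have f2 : ‖φ (K.kc.F2 u)‖ ≤ 6 * (1 * β) := by
    rw [← kk_F2 _ p, KC.F2, KC.V_bs, map_sum]
    simp only [map_mul]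
    refine sum6 (fun i => ?_) lb
    fin_cases i <;> simp [i1, b1, b2, b3]
  have e : K.d 1 u = (kk K p).bs 1 u + p.h1 * (kk K p).bs 0 u + p.j1 * K.kc.F2 u :=
    (by linear_combination -kk_R K p u : K.kc.R u = (kk K p).R u + p.h1 * K.kc.T u +
      p.j1 * K.kc.F2 u)
  rw [e, map_add, map_add, map_mul, map_mul]
  refine norm_add₃_le.trans ?_
  rw [norm_mul, norm_mul]
  linarith [lb 1, mul_le_mul j1 (lb 0) (norm_nonneg _) J0, mul_le_mul j2 f2 (norm_nonneg _) J0]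

theorem key {K : Hp A} {p : Pm A} (h : K.Is) (q : p.Is K) {u : A} (h1 : K.H u = 0)
    (h2 : K.B u = 0) : (2 * (kk K p).W - ((kk K p).De - 1) * p.h1) * K.d 0 u +
      ((kk K p).De - 1) * K.d 1 u + (p.a - ((kk K p).De - 1) * p.j1) *
        (ii A * (K.z 3 * K.d 3 u - K.z 2 * K.d 2 u + K.z 4 * K.d 4 u - K.z 5 * K.d 5 u)) =
      (K.z 1 * K.z 1 + p.a * p.a * K.kc.x * K.kc.x) * K.Ni * (kk K p).th u +
        K.N * (kk K p).tp u := by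
  have e := F2_Om h u
  have e2 : K.kc.F2 u = ii A * K.kc.s * K.P u - ii A * K.kc.sb * K.Q u := by
    simp only [KC.F2, KC.V_ap]
    simp only [Hp.kc, h1, h2]
    ring
  have e3 : ii A * (K.z 3 * K.d 3 u - K.z 2 * K.d 2 u + K.z 4 * K.d 4 u - K.z 5 * K.d 5 u) =
      K.kc.F2 u := by
    rw [e]
    simp only [Om, Matrix.cons_val, Derivation.smul_apply, Derivation.add_apply,
      Derivation.sub_apply, smul_eq_mul]
    linear_combination -(ii A * (K.z 3 * K.d 3 u - K.z 2 * K.d 2 u + K.z 4 * K.d 4 u -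
      K.z 5 * K.d 5 u)) * two_hf (A := A)
  have g := q.hg
  have n := h.hN
  rw [e3]
  simp only [KC.th, KC.tp, KC.V_ap, kk_R, e2]
  generalize (kk K p).De = D
  generalize (kk K p).W = W
  generalize (kk K p).ee = ee
  simp only [kk, Hp.kc, h1, h2] at g ⊢
  generalize 2 * K.z 2 * K.z 3 * K.Ni = s
  generalize 2 * K.z 4 * K.z 5 * K.Ni = sb
  generalize (K.z 2 * K.z 4 - K.z 3 * K.z 5) * K.Ni = x at g ⊢
  linear_combination -(2 * W * K.d 0 u + D * (K.d 1 u - p.h1 * K.d 0 u - p.j1 * (ii A * s * K.P u -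
    ii A * sb * K.Q u)) + p.a * (ii A * s * K.P u - ii A * sb * K.Q u)) * (K.N * K.Ni * g + n) +
    (K.d 1 u - p.h1 * K.d 0 u - p.j1 * (ii A * s * K.P u - ii A * sb * K.Q u)) * n

end alg

/-- The timelike field. -/
def Vt (M0 : ℝ) (p : (ℝ × ℝ) × ℝ × ℂ × ℂ) : E6 :=
  (2 * (p.2.1 ^ 2 + p.1.2 ^ 2) - (De p.1.1 p.1.2 p.2.1 - 1) * hs M0 (p.1.1, p.1.2, p.2.1),
    De p.1.1 p.1.2 p.2.1 - 1,
    (p.1.2 - (De p.1.1 p.1.2 p.2.1 - 1) * js M0 (p.1.1, p.1.2, p.2.1) : ℝ) * (-I * p.2.2.1),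
    (p.1.2 - (De p.1.1 p.1.2 p.2.1 - 1) * js M0 (p.1.1, p.1.2, p.2.1) : ℝ) * (I * p.2.2.2))

theorem Vt_cont {M0 : ℝ} (h : 0 < M0) : Continuous (Vt M0) := by
  have a := (hs_cd h).continuous
  have b := (js_cd h).continuous
  unfold Vt De
  fun_prop

section conc
variable {O : Set E6} {y : E6}

theorem fd_le (hO : IsOpen O) (hy : y ∈ O) (ha : An y) {u : Sm (on O)} {β J : ℝ} (hJ : 0 ≤ J)
    (h0 : ‖fv ((hp _).d 0 u) y‖ ≤ β) (h1 : ‖fv ((hp _).d 1 u) y‖ ≤ (1 + 7 * J) * β)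
    (h2 : ‖fv ((hp _).P u) y‖ ≤ β) (h3 : ‖fv ((hp _).Q u) y‖ ≤ β) (h4 : ‖fv ((hp _).H u) y‖ ≤ β)
    (h5 : ‖fv ((hp _).B u) y‖ ≤ β) (v : E6) : ‖fderiv ℝ (fv u) y v‖ ≤ (20 + 20 * J) * β * ‖v‖ := by
  have β0 := (norm_nonneg _).trans h0
  have sq : ∀ {z : ℂ} {b : ℝ}, ‖z‖ ≤ b → ‖z‖ ^ 2 ≤ b ^ 2 := fun h =>
    pow_le_pow_left₀ (norm_nonneg _) h 2
  have e1 := pq_eq u hy
  have e2 := fv_le hO u hy v
  have z5 : 0 ≤ ∑ i : Fin 4, ‖fv ((hp _).d i.succ.succ u) y‖ ^ 2 := by positivity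
  have e3 : ∑ i : Fin 4, ‖fv ((hp _).d i.succ.succ u) y‖ ^ 2 ≤ 8 * β ^ 2 := by
    linarith [mul_le_mul_of_nonneg_right ha.1 z5, sq h2, sq h3, sq h4, sq h5]
  have n1 : v.1 ^ 2 ≤ ‖v‖ ^ 2 := sq_le_sq' (neg_le_of_abs_le (norm_fst_le v))
    (le_of_abs_le (norm_fst_le v))
  have n2' := (norm_fst_le v.2).trans (norm_snd_le v)
  have n2 : v.2.1 ^ 2 ≤ ‖v‖ ^ 2 := sq_le_sq' (neg_le_of_abs_le n2') (le_of_abs_le n2')
  have n3 : nq v ≤ 2 * ‖v‖ ^ 2 := by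
    have := (norm_snd_le v.2).trans (norm_snd_le v)
    rw [nq, ← Complex.sq_norm, ← Complex.sq_norm]
    linarith [sq ((norm_fst_le v.2.2).trans this), sq ((norm_snd_le v.2.2).trans this)]
  rw [fv_pd hO _ _ hy] at e2
  refine (abs_le_of_sq_le_sq' (e2.trans ?_) (by positivity)).2
  have t1 := mul_le_mul n1 (sq h0) (sq_nonneg _) (sq_nonneg _)
  have t2 := mul_le_mul n2 (sq h1) (sq_nonneg _) (sq_nonneg _)
  have t3 := mul_le_mul n3 e3 z5 (by positivity)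
  have t4 : 3 * (1 + (1 + 7 * J) ^ 2 + 32) ≤ (20 + 20 * J) ^ 2 := by nlinarith
  linarith [mul_le_mul_of_nonneg_right t4 (sq_nonneg (β * ‖v‖))]

/-- The values of the generators. -/
theorem vals (h : Cone O) {M0 : ℝ} (h0 : 0 < M0) (M a : ℝ) (hy : y ∈ O) :
    fv (hp (on O)).kc.r y = y.2.1 ∧ fv (hp (on O)).N y = nq y ∧
    fv (hp (on O)).Ni y = (nq y : ℂ)⁻¹ ∧ fv (pI O M0 M a).a y = a ∧ fv (pI O M0 M a).M y = M ∧
    fv (pI O M0 M a).h1 y = hs M0 (M, a, y.2.1) ∧ fv (pI O M0 M a).j1 y = js M0 (M, a, y.2.1) := by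
  have e : ∀ b : ℝ, fv (cst fun _ => (b : ℂ) : Sm (on O)) y = b := fun b =>
    fv_rs (rs_cst fun _ => (b : ℂ)) hy
  refine ⟨?_, ?_, ?_, ?_, ?_, ?_, ?_⟩
  · exact (fv_z hy 1).trans (by simp [zc])
  · exact fv_rs rs_N hy
  · exact fv_rs (rs_Ni (cone_pos h).off) hy
  · exact e a
  · exact e M
  · have := fv_rf h (hs_on h0 M a) hy
    simpa only [pI] using this
  · have := fv_rf h (js_on h0 M a) hy
    simpa only [pI] using this

end conc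

end Vale.Agent.P354CV
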