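import Vale.Agent.P354CV.Pt

/-!
The two pointwise estimates with uniform constants.
-/

open Set Filter Topology Complex

noncomputable section

namespace Vale.Agent.P354CV

open Vale.Agent.P354XG Vale.Agent.P354XD Vale.Agent.P354XI Vale.Agent.P354Z Vale.Agent.P354XW
open Vale.Agent.P354XR
open Vale.Agent.P354XF (fr)
open Vale.Agent.P354BF (De)
open Vale.Agent.P354BO (q2_succ q2_nonneg q2_der q2_val)

theorem key_val {A : Type} [CommRing A] [Algebra ℂ A] {K : Hp A} {p : Pm A} (h : K.Is) (q : p.Is K)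
    {φ : A →+* ℂ} (hφ : ∀ z, φ (algebraMap ℂ A z) = z) {r a M X n h1 j1 : ℝ}
    (v1 : φ K.kc.r = r) (v2 : φ K.N = n) (v3 : φ K.Ni = (n : ℂ)⁻¹) (v4 : φ p.a = a)
    (v5 : φ p.M = M) (v6 : φ p.h1 = h1) (v7 : φ p.j1 = j1) (v8 : φ (kk K p).x = X) {u : A}
    (u1 : K.H u = 0) (u2 : K.B u = 0) :
    (2 * (r ^ 2 + a ^ 2) - (De M a r - 1) * h1 : ℝ) * φ (K.d 0 u) +
      (De M a r - 1 : ℝ) * φ (K.d 1 u) + (a - (De M a r - 1) * j1 : ℝ) *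
        (I * (φ (K.z 3) * φ (K.d 3 u) - φ (K.z 2) * φ (K.d 2 u) + φ (K.z 4) * φ (K.d 4 u) -
          φ (K.z 5) * φ (K.d 5 u))) = ((r ^ 2 + (a * X) ^ 2) * n⁻¹ : ℝ) * φ (f4 (kk K p).kerr 0 u) +
      n * φ (f4 (kk K p).kerr 1 u) := by
  have e := congrArg φ (key h q u1 u2)
  have w1 : φ (K.z 1) = r := v1
  have w2 : φ (kk K p).r = r := v1
  have w3 : φ (kk K p).a = a := v4
  have w4 : φ (kk K p).M = M := v5
  have w5 : φ K.kc.x = X := v8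
  simp only [map_add, map_mul, map_sub, map_one, map_ofNat, KC.W, KC.De, ii, hφ, v2, v3, v4, v6,
    v7, w1, w2, w3, w4, w5] at e
  show _ = _ * φ ((kk K p).th u) + _ * φ ((kk K p).tp u)
  simp only [De]
  push_cast
  linear_combination e

theorem re_ge {α ν a b η S k : ℝ} {k0 k1 : ℂ} (h0 : ‖(a : ℂ) - k0‖ ≤ η * S)
    (h1 : ‖(b : ℂ) - k1‖ ≤ η * S) (a0 : 0 ≤ α) (n0 : 0 ≤ ν) (hk : α + ν ≤ k) :
    α * a + ν * b - k * (η * S) ≤ ((α : ℂ) * k0 + ν * k1).re := by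
  have b0 := (re_le_norm _).trans h0
  have b1 := (re_le_norm _).trans h1
  simp only [sub_re, ofReal_re, add_re, re_ofReal_mul] at b0 b1 ⊢
  nlinarith [mul_le_mul_of_nonneg_left b0 a0, mul_le_mul_of_nonneg_left b1 n0,
    mul_le_mul_of_nonneg_right hk ((norm_nonneg _).trans h0)]

theorem pt {M0 r1 : ℝ} (h0 : 0 < M0) (h1 : 0 < r1) (R : ℝ) : ∃ C m δ : ℝ, 0 < C ∧ 0 < m ∧ 0 < δ ∧
    ∀ {O : Set E6} {M a : ℝ} {G : GHP (Sm (on O))} {d : Fin 4 × Fin 6 → Sm (on O)} {y : E6},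
      Cone O → |a| < M → M ≤ 5 / 4 * M0 → G.H = (hp _).H → G.Hb = (hp _).B →
      (∀ b u, f4 G b u = f4 (kI O M0 M a).kerr b u + ∑ e, d (b, e) * (kI O M0 M a).bs e u) →
      y ∈ O → An y → r1 ≤ y.2.1 → y.2.1 ≤ R → (∀ i, ‖fv (d i) y‖ ≤ δ) →
      (∀ u v, ‖fderiv ℝ (fv u) y v‖ ^ 2 ≤ C * ‖v‖ ^ 2 * q2 (fr G) y 1 u) ∧
      ∀ (u : Sm (on O)) (s t : ℝ), (hp _).H u = 0 → (hp _).B u = 0 → fv (G.th u) y = s →
        fv (G.tp u) y = t → 0 ≤ s → 0 ≤ t → ‖fv (G.et u) y‖ ≤ s + t → ‖fv (G.ep u) y‖ ≤ s + t →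
        ∀ w, ‖w‖ ≤ m → 0 ≤ (fderiv ℝ (fv u) y (Vt M0 ((M, a), y.2) + w)).re := by
  obtain ⟨k, hk⟩ : ∃ k, k = |R| + 2 + (r1 ^ 2)⁻¹ + 5 / 4 * M0 := ⟨_, rfl⟩
  obtain ⟨μ, μ0, μ1, μ2⟩ : ∃ μ : ℝ, 0 < μ ∧ μ ≤ 1 / 2 ∧ μ ≤ r1 ^ 2 * (2 / 3) :=
    ⟨min (1 / 2) (r1 ^ 2 * (2 / 3)), by positivity, min_le_left _ _, min_le_right _ _⟩
  have z1 : 0 ≤ (r1 ^ 2)⁻¹ := by positivity
  have z2 := abs_nonneg R
  obtain ⟨C, hC, hx⟩ := xe_bd k (by linarith)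
  obtain ⟨J, hJ⟩ := (isCompact_closedBall (0 : ℝ × ℝ × ℝ) k).exists_bound_of_continuousOn
    ((hs_cd h0).continuous.prodMk (js_cd h0).continuous).continuousOn
  have J0 := abs_nonneg J
  obtain ⟨D, hD⟩ : ∃ D, D = (20 + 20 * |J|) * (12 * C) := ⟨_, rfl⟩
  have D0 : 0 < D := by rw [hD]; positivity
  refine ⟨D ^ 2, μ / (2 * D), μ / (2 * (4 * k ^ 2 + 2)) / (72 * C), by positivity, by positivity,
    by positivity, fun {O M a G d y} h q1 q2' gH gB e hy ha r1' hr hd => ?_⟩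
  have k1 := kk_is (cone_hp h) (pI_is h h0 M a)
  obtain ⟨v1, v2, v3, v4, v5, v6, v7⟩ := vals h h0 M a hy
  have r0 := h1.trans_le r1'
  have hφ : ∀ z, evO ⟨y, hy⟩ (algebraMap ℂ _ z) = z := fun z => fv_alg z hy
  obtain ⟨X, v8, b1, b2, b3, b4⟩ := gens k1 (evO ⟨y, hy⟩) (fun f => fv_cj f y) v1 v4 r0
  have b5 : (y.2.1 ^ 2)⁻¹ ≤ (r1 ^ 2)⁻¹ := inv_anti₀ (by positivity) (by gcongr)
  have b6 : |y.2.1| ≤ k := by rw [abs_of_pos r0]; linarith [le_abs_self R]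
  have b7 : |a| ≤ k := by linarith
  have b8 : |M| ≤ k := by rw [abs_of_pos ((abs_nonneg _).trans_lt q1)]; linarith
  have n0 : 0 < nq y := by linarith [ha.1]
  have b9 : (nq y)⁻¹ ≤ 2 := by rw [inv_le_comm₀ n0 two_pos]; linarith [ha.1]
  have nr : ∀ {z : ℂ} {x b : ℝ}, z = x → |x| ≤ b → ‖z‖ ≤ b := fun e h => by
    rwa [e, norm_real]
  have xe : ∀ e b, ‖evO ⟨y, hy⟩ ((kk (hp _) (pI O M0 M a)).xe e b)‖ ≤ C := fun e b => by
    rw [xe_val _ _ hφ]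
    exact hx (nr v1 b6) (nr v8 (by linarith)) (b2.trans (by linarith)) (b3.trans (by linarith))
      (nr v2 (by rw [abs_of_pos n0]; linarith [ha.2])) (nr (v3.trans (ofReal_inv _).symm)
      (by rw [abs_of_pos (inv_pos.2 n0)]; linarith)) (b4.trans (by linarith)) (nr v4 b7)
      (nr v5 b8) e b
  have j := (hJ (M, a, y.2.1) (mem_closedBall_zero_iff.2 (norm_prod_le_iff.2
    ⟨b8, norm_prod_le_iff.2 ⟨b7, b6⟩⟩))).trans (le_abs_self J)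
  have δe : 72 * C * (μ / (2 * (4 * k ^ 2 + 2)) / (72 * C)) = μ / (2 * (4 * k ^ 2 + 2)) := by
    field_simp
  have δ1 : μ / (2 * (4 * k ^ 2 + 2)) ≤ 1 := (div_le_one (by positivity)).2 (by nlinarith)
  have main : ∀ (u : Sm (on O)) (γ : ℝ), (∀ b, ‖fv (fr G b u) y‖ ≤ γ) →
      (∀ v, ‖fderiv ℝ (fv u) y v‖ ≤ D * γ * ‖v‖) ∧ ∀ b, ‖evO ⟨y, hy⟩ (f4 G b u) -
        evO ⟨y, hy⟩ (f4 (kk (hp _) (pI O M0 M a)).kerr b u)‖ ≤ μ / (2 * (4 * k ^ 2 + 2)) * γ := by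
    intro u γ hg
    obtain ⟨lb, c2⟩ := core k1 hC (δe.trans_le δ1) xe gH gB hd (fun b => e b u) hg
    rw [δe] at c2
    refine ⟨fun v => (fd_le h.op hy ha J0 (lb 0) (d1_le hφ (nr v8 b1) b2 b3
      (nr v6 (norm_prod_le_iff.1 j).1) (nr v7 (norm_prod_le_iff.1 j).2) lb) (lb 2) (lb 3) (lb 4)
      (lb 5) v).trans (le_of_eq ?_), c2⟩
    rw [hD]; ring
  refine ⟨fun u v => ?_, fun u s t u1 u2 e0 e1 s0 t0 e2 e3 w hw => ?_⟩
  · have := (main u √(q2 (fr G) y 1 u) fun b => Real.le_sqrt_of_sq_le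
      ((q2_val _ _ 0 _).trans (q2_der _ _ 0 b u))).1 v
    refine (pow_le_pow_left₀ (norm_nonneg _) this 2).trans (le_of_eq ?_)
    rw [mul_pow, mul_pow, Real.sq_sqrt (q2_nonneg _ _ _ _)]; ring
  have hg : ∀ b, ‖fv (fr G b u) y‖ ≤ s + t := fun b => by
    have g4 : ‖fv (G.H u) y‖ ≤ s + t := by rw [gH, u1, fv_zero, norm_zero]; linarith
    have g5 : ‖fv (G.Hb u) y‖ ≤ s + t := by rw [gB, u2, fv_zero, norm_zero]; linarith
    fin_cases b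
    exacts [nr e0 (by rw [abs_of_nonneg s0]; linarith), nr e1 (by rw [abs_of_nonneg t0]; linarith),
      e2, e3, g4, g5]
  obtain ⟨m1, m2⟩ := main u _ hg
  have kv := key_val (cone_hp h) (pI_is h h0 M a) hφ v1 v2 v3 v4 v5 v6 v7 v8 u1 u2
  have ev : ∀ f, evO ⟨y, hy⟩ f = fv f y := fun _ => rfl
  have fd : fderiv ℝ (fv u) y (Vt M0 ((M, a), y.2)) = _ := Eq.trans (by
    rw [← fv_pd h.op _ _ hy, fv_dir h.op u hy, Fin.sum_univ_six]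
    simp only [ev, fv_z hy]
    simp [zc, Vt]
    ring) kv
  have a0 : r1 ^ 2 * (2 / 3) ≤ (y.2.1 ^ 2 + (a * X) ^ 2) * (nq y)⁻¹ := mul_le_mul
    (le_add_of_le_of_nonneg (by gcongr) (sq_nonneg _))
    (by rw [le_inv_comm₀ (by norm_num) n0]; linarith [ha.2]) (by norm_num) (by positivity)
  have a1 : (y.2.1 ^ 2 + (a * X) ^ 2) * (nq y)⁻¹ ≤ 2 * k ^ 2 * 2 := by
    have c1 := pow_le_pow_left₀ (abs_nonneg _) b6 2
    have c2 := pow_le_pow_left₀ (abs_nonneg _) ((abs_mul a X).trans_le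
      ((mul_le_of_le_one_right (abs_nonneg a) b1).trans b7)) 2
    rw [sq_abs] at c1 c2
    exact mul_le_mul (by linarith) b9 (by positivity) (by positivity)
  have m0 := m2 0
  have m3 := m2 1
  rw [show evO ⟨y, hy⟩ (f4 G 0 u) = s from e0] at m0
  rw [show evO ⟨y, hy⟩ (f4 G 1 u) = t from e1] at m3
  have r := re_ge (k := 4 * k ^ 2 + 2) m0 m3 (le_trans (by positivity) a0) n0.le
    (by linarith [ha.2])
  have c1 : (4 * k ^ 2 + 2) * (μ / (2 * (4 * k ^ 2 + 2)) * (s + t)) = μ / 2 * (s + t) := by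
    field_simp
  have c2 : D * (s + t) * (μ / (2 * D)) = μ / 2 * (s + t) := by field_simp
  have c3 := (abs_le.1 ((abs_re_le_norm _).trans ((m1 w).trans (mul_le_mul_of_nonneg_left hw
    (by positivity))))).1
  rw [map_add, add_re, fd]
  linarith [mul_le_mul_of_nonneg_right (μ2.trans a0) s0,
    mul_le_mul_of_nonneg_right (μ1.trans ha.1) t0]

end Vale.Agent.P354CV
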