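import Vale.Agent.P354YH.Seq

/-!
The exponential memory and the tails of a sequence in the weights (1 + j)^q.
-/

open Finset Real

noncomputable section

namespace Vale.Agent.P354CV

open Vale.Agent.P354YH

variable {p q e c N : ℝ} {j k w : ℕ} {m n : ℕ → ℝ}

/-- The exponential memory. -/
def me (e : ℝ) (m : ℕ → ℝ) (w j : ℕ) : ℝ := (e + ∑ i ∈ range (j + w + 1), m i * 2 ^ i) / 2 ^ j

theorem me_nn (he : 0 ≤ e) (hm : ∀ i, 0 ≤ m i) : 0 ≤ me e m w j :=
  div_nonneg (add_nonneg he (sum_nonneg fun i _ => mul_nonneg (hm i) (by positivity)))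
    (by positivity)

theorem me_succ : me e m w (j + 1) = me e m w j / 2 + 2 ^ w * m (j + 1 + w) := by
  rw [me, me, show j + 1 + w + 1 = j + w + 1 + 1 by ring, sum_range_succ,
    show j + w + 1 = j + 1 + w by ring]
  field_simp
  ring

theorem me_sq (hm : ∀ i, 0 ≤ m i) :
    me e (fun i => √(m i)) w j ^ 2 ≤ 2 ^ (w + 1) * me (e ^ 2) m w j := by
  have a : ∀ N, (e + ∑ i ∈ range N, √(m i) * 2 ^ i) ^ 2 ≤
      2 ^ N * (e ^ 2 + ∑ i ∈ range N, m i * 2 ^ i) := fun N => by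
    induction N with
    | zero => simp
    | succ N ih =>
      rw [sum_range_succ, sum_range_succ, ← add_assoc, ← add_assoc, pow_succ (2 : ℝ)]
      have b : (√(m N) * 2 ^ N) ^ 2 = m N * 2 ^ N * 2 ^ N := by
        rw [mul_pow, sq_sqrt (hm N)]; ring
      nlinarith [sq_nonneg (e + ∑ i ∈ range N, √(m i) * 2 ^ i - √(m N) * 2 ^ N)]
  rw [me, me, div_pow, div_le_iff₀ (by positivity)]
  refine (a _).trans (le_of_eq ?_)
  field_simp
  ring

theorem wt_one_le (h : 0 ≤ q) (j : ℕ) : 1 ≤ wt q j := wt_zero q ▸ wt_mono h (Nat.zero_le j)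

theorem wt_neg (q : ℝ) (j : ℕ) : wt (-q) j * wt q j = 1 := by
  rw [← wt_add, neg_add_cancel, wt_q0]

theorem wt8 (h0 : 0 ≤ q) (h3 : q ≤ 3) (j : ℕ) : wt q (j + 1 + 7) ≤ 3 / 2 * wt q (j + 7) := by
  have := rpow_cmp (x := 1 + ((j + 1 + 7 : ℕ) : ℝ)) (y := 1 + ((j + 7 : ℕ) : ℝ)) (c := 9 / 8) h0 h3
    (by positivity) (by positivity) (by norm_num) (by have := one_le_b j; push_cast; linarith)
  exact this.trans (mul_le_mul_of_nonneg_right (by norm_num) (wt_pos q _).le)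

theorem wt7 (h0 : 0 ≤ q) (h3 : q ≤ 3) (j : ℕ) : wt q (j + 7) ≤ 512 * wt q j := by
  have := rpow_cmp (x := 1 + ((j + 7 : ℕ) : ℝ)) (y := 1 + j) (c := 8) h0 h3
    (by positivity) (by positivity) (by norm_num) (by have := one_le_b j; push_cast; linarith)
  exact this.trans (mul_le_mul_of_nonneg_right (by norm_num) (wt_pos q _).le)

/-- The weighted sum of the memory. -/
theorem me_sum (h0 : 0 ≤ q) (h3 : q ≤ 3) (he : 0 ≤ e) (hm : ∀ i, 0 ≤ m i) (k : ℕ) :
    sm q k (me e m w) ≤ 2 ^ (w + 11) * (e + sm q (k + w) m) := by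
  have w1 : (1 : ℝ) ≤ 2 ^ w := one_le_pow₀ one_le_two
  have a : ∀ k, ∑ j ∈ range (k + 1), wt q (j + 7) * me e m w j + 3 * (wt q (k + 7) * me e m w k) ≤
      4 * 2 ^ w * (wt q 7 * e + ∑ i ∈ range (k + w + 1), wt q (i + 7) * m i) := fun k => by
    induction k with
    | zero =>
      have b : wt q 7 * ∑ i ∈ range (w + 1), m i * 2 ^ i ≤
          2 ^ w * ∑ i ∈ range (w + 1), wt q (i + 7) * m i := by
        rw [mul_sum, mul_sum]
        refine sum_le_sum fun i hi => ?_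
        have b1 : (2 : ℝ) ^ i ≤ 2 ^ w := pow_le_pow_right₀ one_le_two (by have := mem_range.1 hi; omega)
        have b2 : wt q 7 ≤ wt q (i + 7) := wt_mono h0 (by omega)
        calc _ = 2 ^ i * (wt q 7 * m i) := by ring
          _ ≤ _ := mul_le_mul b1 (mul_le_mul_of_nonneg_right b2 (hm i))
            (mul_nonneg (wt_pos q _).le (hm i)) (by positivity)
      have b3 := mul_le_mul_of_nonneg_right w1 (mul_nonneg (wt_pos q 7).le he)
      simp only [me, zero_add, range_one, sum_singleton, pow_zero, div_one]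
      linarith
    | succ k ih =>
      have b1 := mul_le_mul_of_nonneg_right (wt8 h0 h3 k) (me_nn (w := w) (j := k) he hm)
      have b2 := mul_le_mul_of_nonneg_left (mul_le_mul_of_nonneg_right
        (wt_mono h0 (show k + 1 + 7 ≤ k + 1 + w + 7 by omega)) (hm (k + 1 + w))) (zero_le_one.trans w1)
      rw [sum_range_succ _ (k + 1), sum_range_succ _ (k + 1 + w), me_succ,
        show k + 1 + w = k + w + 1 by ring] at *
      linarith
  have b1 : sm q k (me e m w) ≤ ∑ j ∈ range (k + 1), wt q (j + 7) * me e m w j :=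
    sum_le_sum fun j _ => mul_le_mul_of_nonneg_right (wt_mono h0 (by omega)) (me_nn he hm)
  have b2 : ∑ i ∈ range (k + w + 1), wt q (i + 7) * m i ≤ 512 * sm q (k + w) m := by
    rw [sm, mul_sum]
    exact sum_le_sum fun i _ => by linarith [mul_le_mul_of_nonneg_right (wt7 h0 h3 i) (hm i)]
  have b3 := mul_le_mul_of_nonneg_right (wt7 h0 h3 0) he
  have b4 := mul_nonneg (wt_pos q (k + 7)).le (me_nn (w := w) (j := k) he hm)
  rw [wt_zero] at b3
  have b5 := mul_le_mul_of_nonneg_left (add_le_add b3 b2) (zero_le_one.trans w1)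
  have := a k
  rw [pow_add]
  simp only [zero_add] at b5
  linarith

/-- The decay of the memory. -/
theorem me_pt (h0 : 0 ≤ q) (h3 : q ≤ 3) (he : 0 ≤ e) (hm : ∀ i, 0 ≤ m i)
    (h : ∀ i, wt q i * m i ≤ c) (j : ℕ) : wt q j * me e m w j ≤ 2 ^ (w + 11) * (e + c) := by
  have w1 : (1 : ℝ) ≤ 2 ^ w := one_le_pow₀ one_le_two
  have mc : ∀ i, m i ≤ c := fun i => (le_mul_of_one_le_left (hm i) (wt_one_le h0 i)).trans (h i)
  have c0 := (hm 0).trans (mc 0)
  refine (mul_le_mul_of_nonneg_right (wt_mono h0 (Nat.le_add_right j 7)) (me_nn he hm)).trans ?_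
  rw [pow_add]
  induction j with
  | zero =>
    have b : ∑ i ∈ range (w + 1), m i * 2 ^ i ≤ c * (2 * 2 ^ w) := by
      refine (sum_le_sum fun i _ => mul_le_mul_of_nonneg_right (mc i) (by positivity)).trans ?_
      rw [← mul_sum, geom_sum_eq (by norm_num), pow_succ]
      exact mul_le_mul_of_nonneg_left (by linarith) c0
    have b1 := mul_le_mul_of_nonneg_right (wt7 h0 h3 0) (me_nn (w := w) (j := 0) he hm)
    rw [wt_zero] at b1
    simp only [me, zero_add, pow_zero, div_one] at b1 ⊢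
    nlinarith
  | succ j ih =>
    have b1 := mul_le_mul_of_nonneg_right (wt8 h0 h3 j) (me_nn (w := w) (j := j) he hm)
    have b2 := mul_le_mul_of_nonneg_right ((wt_mono h0
      (show j + 1 + 7 ≤ j + 1 + w + 7 by omega)).trans (wt7 h0 h3 _)) (hm (j + 1 + w))
    have b3 := mul_le_mul_of_nonneg_left (b2.trans (show _ ≤ 512 * c by linarith [h (j + 1 + w)]))
      (zero_le_one.trans w1)
    rw [me_succ]
    nlinarith

/-- Q bounds the tails of n. -/
def Tl (n Q : ℕ → ℝ) : Prop := ∀ j k, ∑ i ∈ range k, n (j + i) ≤ Q j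

theorem wt_le (h : q ≤ 0) (e : j ≤ k) : wt q k ≤ wt q j :=
  antitone_nat_of_succ_le (wt_anti h) e

theorem tl_pt {r : ℝ} (hr : 1 < r) : ∃ A, 0 ≤ A ∧ ∀ {p c : ℝ} {n : ℕ → ℝ}, r ≤ p → 0 ≤ c →
    (∀ i, wt p i * n i ≤ c) → Tl n fun j => A * c * wt (r - p) j := by
  obtain ⟨A, hA, h⟩ := wt_sum hr
  refine ⟨A, hA, fun {p c n} hp hc hn j k => ?_⟩
  have a : ∀ i, n (j + i) ≤ c * wt (r - p) j * wt (-r) i := fun i => by
    have b1 := mul_le_mul_of_nonneg_left (hn (j + i)) (wt_pos (-p) (j + i)).le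
    rw [← mul_assoc, wt_neg, one_mul, show -p = r - p + -r by ring, wt_add, mul_comm] at b1
    rw [mul_assoc]
    exact b1.trans (mul_le_mul_of_nonneg_left (mul_le_mul (wt_le (by linarith) (by omega))
      (wt_le (by linarith) (by omega)) (wt_pos _ _).le (wt_pos _ _).le) hc)
  refine (sum_le_sum fun i _ => a i).trans ?_
  rw [← mul_sum]
  linarith [mul_le_mul_of_nonneg_left (h k) (mul_nonneg hc (wt_pos (r - p) j).le)]

theorem tl_sm (h0 : 0 ≤ q) (hn : ∀ i, 0 ≤ n i) (h : ∀ k, sm q k n ≤ N) :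
    Tl n fun j => N * wt (-q) j := fun j k => by
  have a : ∑ i ∈ range k, wt q (j + i) * n (j + i) ≤ N := by
    refine le_trans ?_ (h (j + k))
    rw [sm, sum_range_succ, sum_range_add]
    linarith [sum_nonneg (s := range j) fun i _ => mul_nonneg (wt_pos q i).le (hn i),
      mul_nonneg (wt_pos q (j + k)).le (hn (j + k))]
  refine le_trans ?_ (mul_le_mul_of_nonneg_right a (wt_pos _ _).le)
  rw [sum_mul]
  refine sum_le_sum fun i _ => ?_
  have b := mul_le_mul_of_nonneg_left (wt_mono h0 (Nat.le_add_right j i)) (wt_pos (-q) j).le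
  rw [wt_neg] at b
  linarith [mul_le_mul_of_nonneg_right b (hn (j + i))]

theorem wt_shift (h : 0 ≤ q) (j w : ℕ) : wt (-q) (j - w) ≤ wt q w * wt (-q) j := by
  have a : wt q j ≤ wt q w * wt q (j - w) := by
    rw [wt, wt, wt, ← mul_rpow (by positivity) (by positivity)]
    refine rpow_le_rpow (by positivity) ?_ h
    have : (j : ℝ) ≤ w + (j - w : ℕ) := by exact_mod_cast (by omega : j ≤ w + (j - w))
    nlinarith [mul_nonneg (Nat.cast_nonneg (α := ℝ) w) (Nat.cast_nonneg (α := ℝ) (j - w))]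
  have b := mul_le_mul_of_nonneg_left a (mul_pos (wt_pos (-q) j) (wt_pos (-q) (j - w))).le
  calc _ = wt (-q) j * wt q j * wt (-q) (j - w) := by rw [wt_neg, one_mul]
    _ ≤ wt q w * wt (-q) j * (wt (-q) (j - w) * wt q (j - w)) := by linarith
    _ = _ := by rw [wt_neg, mul_one]

/-- The weighted sum of the squares of the tails. -/
theorem tail {q2 : ℝ} (hp : 1 < p) (h0 : 0 ≤ q) (h : q2 + 2 < p + q) (w : ℕ) :
    ∃ C, 0 ≤ C ∧ ∀ {n : ℕ → ℝ} {c N : ℝ}, (∀ i, 0 ≤ n i) → (∀ i, wt p i * n i ≤ c) →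
      (∀ k, sm q k n ≤ N) → ∃ Q, Tl n Q ∧ ∀ k, sm q2 k (fun j => Q (j - w) ^ 2) ≤ C * (c * N) := by
  obtain ⟨r, r1, r2, r3⟩ : ∃ r, 1 < r ∧ r ≤ p ∧ 1 < p + q - r - q2 :=
    ⟨min p (1 + (p + q - q2 - 2) / 2), lt_min hp (by linarith), min_le_left _ _, by
      linarith [min_le_right p (1 + (p + q - q2 - 2) / 2)]⟩
  obtain ⟨A, hA, tA⟩ := tl_pt r1
  obtain ⟨B, hB, tB⟩ := wt_sum r3
  refine ⟨A * wt (p + q - r) w * B, mul_nonneg (mul_nonneg hA (wt_pos _ _).le) hB,
    fun {n c N} hn hc hN => ?_⟩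
  have c0 := (mul_nonneg (wt_pos p 0).le (hn 0)).trans (hc 0)
  have N0 := (sm_nn q 0 hn).trans (hN 0)
  refine ⟨fun j => min (A * c * wt (r - p) j) (N * wt (-q) j), fun j k =>
    le_min (tA r2 c0 hc j k) (tl_sm h0 hn hN j k), fun k => ?_⟩
  have z := mul_nonneg (mul_nonneg hA (wt_pos (p + q - r) w).le) (mul_nonneg c0 N0)
  have a : ∀ j, wt q2 j * min (A * c * wt (r - p) (j - w)) (N * wt (-q) (j - w)) ^ 2 ≤
      A * wt (p + q - r) w * (c * N) * wt (-(p + q - r - q2)) j := fun j => by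
    have a1 := mul_nonneg (mul_nonneg hA c0) (wt_pos (r - p) (j - w)).le
    have a2 := mul_nonneg N0 (wt_pos (-q) (j - w)).le
    have a3 := mul_le_mul (min_le_left _ (N * wt (-q) (j - w))) (min_le_right _ _) (le_min a1 a2) a1
    have a4 := mul_le_mul_of_nonneg_left (wt_shift (q := p + q - r) (by linarith) j w)
      (mul_nonneg hA (mul_nonneg c0 N0))
    rw [show -(p + q - r) = r - p + -q by ring, wt_add] at a4
    rw [show -(p + q - r - q2) = q2 + (r - p + -q) by ring, wt_add, sq]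
    linarith [mul_le_mul_of_nonneg_left (a3.trans (show _ ≤ A * (c * N) *
      (wt (p + q - r) w * wt (r - p + -q) j) by linarith)) (wt_pos q2 j).le]
  refine (sum_le_sum fun j _ => a j).trans ?_
  rw [← mul_sum]
  linarith [mul_le_mul_of_nonneg_left (tB (k + 1)) z]

/-- The same from the decay alone. -/
theorem tail0 {q2 : ℝ} (hp : 1 < p) (h : q2 + 3 < 2 * p) (w : ℕ) :
    ∃ C, 0 ≤ C ∧ ∀ {n : ℕ → ℝ} {c : ℝ}, (∀ i, 0 ≤ n i) → (∀ i, wt p i * n i ≤ c) →
      ∃ Q, Tl n Q ∧ ∀ k, sm q2 k (fun j => Q (j - w) ^ 2) ≤ C * c ^ 2 := by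
  obtain ⟨q, h0, h1, h2⟩ : ∃ q, 0 ≤ q ∧ 1 < p - q ∧ q2 + 2 < p + q :=
    ⟨max 0 ((q2 + 1) / 2), le_max_left _ _, by
      rcases le_total 0 ((q2 + 1) / 2) with a | a
      · rw [max_eq_right a]; linarith
      · rw [max_eq_left a]; linarith, by linarith [le_max_right 0 ((q2 + 1) / 2)]⟩
  obtain ⟨C, hC, t⟩ := tail hp h0 h2 w
  obtain ⟨B, hB, tB⟩ := wt_sum h1
  refine ⟨C * B, mul_nonneg hC hB, fun {n c} hn hc => ?_⟩
  have c0 := (mul_nonneg (wt_pos p 0).le (hn 0)).trans (hc 0)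
  obtain ⟨Q, a, b⟩ := t (N := c * B) hn hc fun k => by
    refine le_trans (sum_le_sum fun i _ => ?_) ((mul_sum _ _ c).symm.trans_le
      (mul_le_mul_of_nonneg_left (tB (k + 1)) c0))
    have := mul_le_mul_of_nonneg_right (hc i) (wt_pos (-(p - q)) i).le
    rwa [mul_right_comm, ← wt_add, show p + -(p - q) = q by ring] at this
  exact ⟨Q, a, fun k => (b k).trans (le_of_eq (by ring))⟩

end Vale.Agent.P354CV
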